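import Vale.Agent.P197.Key

/-!
# P197: peeling the outer band of antidiagonals off the staircase
-/

namespace Vale.Agent.P197

open Matrix Finset

variable {m b : ℕ}

/-- The outer band of `b` antidiagonals of the staircase of size `m + b`. -/
abbrev Band (m b : ℕ) := {x : Stair (m + b) // m ≤ sRow x + sCol x}

theorem stair_lt {m : ℕ} (x : Stair m) : sRow x + sCol x < m := x.2

/-- Build a staircase cell. -/
def mkCell (i j : ℕ) {m : ℕ} (h : i + j < m) : Stair m :=
  ⟨(⟨i, by omega⟩, ⟨j, by omega⟩), h⟩

@[simp] theorem sRow_mkCell (i j : ℕ) {m : ℕ} (h : i + j < m) : sRow (mkCell i j h) = i := rfl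

@[simp] theorem sCol_mkCell (i j : ℕ) {m : ℕ} (h : i + j < m) : sCol (mkCell i j h) = j := rfl

theorem stair_ext {m : ℕ} {x y : Stair m} (h1 : sRow x = sRow y) (h2 : sCol x = sCol y) :
    x = y :=
  Subtype.ext (Prod.ext (Fin.ext h1) (Fin.ext h2))

/-- The band and the smaller staircase make up the staircase. -/
def glue : Band m b ⊕ Stair m ≃ Stair (m + b) where
  toFun := Sum.elim Subtype.val fun x =>
    mkCell (sRow x) (sCol x) (by have := stair_lt x; omega)
  invFun x := if h : m ≤ sRow x + sCol x then Sum.inl ⟨x, h⟩
    else Sum.inr (mkCell (sRow x) (sCol x) (by omega))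
  left_inv := by
    rintro (⟨x, hx⟩ | x)
    · simp [hx]
    · have := stair_lt x
      exact dif_neg (by simp only [Sum.elim_inr, sRow_mkCell, sCol_mkCell]; omega)
  right_inv x := by
    by_cases h : m ≤ sRow x + sCol x
    · simp [h]
    · simp only [h, dif_neg, not_false_iff, Sum.elim_inr, sRow_mkCell, sCol_mkCell]
      exact stair_ext rfl rfl

theorem glue_inl (x : Band m b) : glue (Sum.inl x) = x.1 := rfl

@[simp] theorem sRow_glue_inr (x : Stair m) : sRow (glue (b := b) (Sum.inr x)) = sRow x := rfl

@[simp] theorem sCol_glue_inr (x : Stair m) : sCol (glue (b := b) (Sum.inr x)) = sCol x := rfl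

/-- Position of a band cell within its row of the band. -/
def rkR (x : Band m b) : ℕ := sCol x.1 - (m - sRow x.1)

/-- Position of a band cell within its column of the band. -/
def rkC (x : Band m b) : ℕ := sRow x.1 - (m - sCol x.1)

theorem rkR_lt (x : Band m b) : rkR x < b := by
  have := stair_lt x.1; have := x.2; unfold rkR; omega

theorem rkC_lt (x : Band m b) : rkC x < b := by
  have := stair_lt x.1; have := x.2; unfold rkC; omega

/-- Reorder every row, band first. -/
def thR : Band m b ⊕ Stair m → Stair (m + b)
  | Sum.inl x => mkCell (sRow x.1) (rkR x) (by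
      have := stair_lt x.1; unfold rkR; omega)
  | Sum.inr x => mkCell (sRow x) (sCol x + b) (by have := stair_lt x; omega)

/-- Reorder every column, band first. -/
def thC : Band m b ⊕ Stair m → Stair (m + b)
  | Sum.inl x => mkCell (rkC x) (sCol x.1) (by
      have := stair_lt x.1; unfold rkC; omega)
  | Sum.inr x => mkCell (sRow x + b) (sCol x) (by have := stair_lt x; omega)

theorem thR_bijective : Function.Bijective (thR (m := m) (b := b)) := by
  rw [Fintype.bijective_iff_injective_and_card]
  refine ⟨?_, Fintype.card_congr glue⟩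
  rintro (x | x) (y | y) h <;>
    have h1 := congrArg sRow h <;> have h2 := congrArg sCol h <;>
    simp only [thR, sRow_mkCell, sCol_mkCell] at h1 h2
  · have := x.2; have := y.2
    exact congrArg Sum.inl (Subtype.ext (stair_ext h1 (by unfold rkR at h2; omega)))
  · have := rkR_lt x; omega
  · have := rkR_lt y; omega
  · exact congrArg Sum.inr (stair_ext h1 (by omega))

theorem thC_bijective : Function.Bijective (thC (m := m) (b := b)) := by
  rw [Fintype.bijective_iff_injective_and_card]
  refine ⟨?_, Fintype.card_congr glue⟩
  rintro (x | x) (y | y) h <;>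
    have h1 := congrArg sRow h <;> have h2 := congrArg sCol h <;>
    simp only [thC, sRow_mkCell, sCol_mkCell] at h1 h2
  · have := x.2; have := y.2
    exact congrArg Sum.inl (Subtype.ext (stair_ext (by unfold rkC at h1; omega) h2))
  · have := rkC_lt x; omega
  · have := rkC_lt y; omega
  · exact congrArg Sum.inr (stair_ext (by omega) h2)

section Weights

variable {R : Type*} [CommRing R]

/-- Row weight of the band. -/
def bR (α : Band m b → ℕ) : R :=
  det (of fun x y : Band m b => if α x = rkR y ∧ sRow x.1 = sRow y.1 then (1 : R) else 0)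

/-- Column weight of the band. -/
def bC (β : Band m b → ℕ) : R :=
  det (of fun x y : Band m b => if sCol x.1 = sCol y.1 ∧ β x = rkC y then (1 : R) else 0)

theorem map_bR {S : Type*} [CommRing S] (φ : R →+* S) (α : Band m b → ℕ) :
    φ (bR α) = bR α := by
  rw [bR, bR, RingHom.map_det]
  congr 1; ext x y; simp [apply_ite φ]

theorem map_bC {S : Type*} [CommRing S] (φ : R →+* S) (α : Band m b → ℕ) :
    φ (bC α) = bC α := by
  rw [bC, bC, RingHom.map_det]
  congr 1; ext x y; simp [apply_ite φ]

variable [CharP R 2]

theorem cast_sign_two {ι : Type*} [Fintype ι] [DecidableEq ι] (σ : Equiv.Perm ι) :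
    (((Equiv.Perm.sign σ : ℤˣ) : ℤ) : R) = 1 := by
  rcases Int.units_eq_one_or (Equiv.Perm.sign σ) with h | h <;> simp [h, CharTwo.neg_eq]

theorem det_submatrix_two {ι κ : Type*} [Fintype ι] [DecidableEq ι] [Fintype κ] [DecidableEq κ]
    (e f : ι ≃ κ) (A : Matrix κ κ R) : (A.submatrix e f).det = A.det := by
  have h : A.submatrix e f = (A.submatrix id (e.symm.trans f)).submatrix e e := by
    ext i j; simp
  rw [h, det_submatrix_equiv_self, det_permute', cast_sign_two, one_mul]

/-- Combine labels of the band and of the smaller staircase. -/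
def comb (a : Band m b → ℕ) (a' : Stair m → ℕ) (x : Stair (m + b)) : ℕ :=
  Sum.elim a (fun y => a' y + b) (glue.symm x)

@[simp] theorem comb_inl (a : Band m b → ℕ) (a' : Stair m → ℕ) (x : Band m b) :
    comb a a' x.1 = a x := by rw [← glue_inl x]; simp [comb]

@[simp] theorem comb_inr (a : Band m b → ℕ) (a' : Stair m → ℕ) (x : Stair m) :
    comb a a' (glue (Sum.inr x)) = a' x + b := by simp [comb]

theorem wR_comb (a : Band m b → ℕ) (a' : Stair m → ℕ) (ha : ∀ x, a x < b) :
    (wR (comb a a') : R) = bR a * wR a' := by
  rw [wR, chi, ← det_submatrix_two glue (Equiv.ofBijective _ thR_bijective)]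
  rw [bR, wR, chi, ← det_fromBlocks_zero₂₁ _ 0]
  congr 1
  ext (x | x) (y | y) <;>
    simp only [submatrix_apply, of_apply, Equiv.ofBijective_apply, Equiv.refl_apply,
      fromBlocks_apply₁₁, fromBlocks_apply₁₂, fromBlocks_apply₂₁, fromBlocks_apply₂₂,
      comb_inl, comb_inr, thR, sCol_mkCell, sRow_mkCell, sRow_glue_inr, glue_inl,
      Matrix.zero_apply]
  · exact if_neg fun hc => by have := ha x; have := hc.1; omega
  · exact if_neg fun hc => by have := rkR_lt y; have := hc.1; omega
  · exact if_congr (by omega) rfl rfl

theorem wC_comb (a : Band m b → ℕ) (a' : Stair m → ℕ) (ha : ∀ x, a x < b) :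
    (wC (comb a a') : R) = bC a * wC a' := by
  rw [wC, chi, ← det_submatrix_two glue (Equiv.ofBijective _ thC_bijective)]
  rw [bC, wC, chi, ← det_fromBlocks_zero₂₁ _ 0]
  congr 1
  ext (x | x) (y | y) <;>
    simp only [submatrix_apply, of_apply, Equiv.ofBijective_apply, Equiv.refl_apply,
      fromBlocks_apply₁₁, fromBlocks_apply₁₂, fromBlocks_apply₂₁, fromBlocks_apply₂₂,
      comb_inl, comb_inr, thC, sCol_mkCell, sRow_mkCell, sCol_glue_inr, glue_inl,
      Matrix.zero_apply]
  · exact if_neg fun hc => by have := ha x; have := hc.2; omega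
  · exact if_neg fun hc => by have := rkC_lt y; have := hc.2; omega
  · exact if_congr (by omega) rfl rfl

omit [CharP R 2] in
theorem exists_perm_of_wR {m : ℕ} {α : Stair m → ℕ} (h : (wR α : R) ≠ 0) :
    ∃ π : Equiv.Perm (Stair m), ∀ y, α (π y) = sCol y ∧ sRow (π y) = sRow y := by
  contrapose! h
  rw [wR, chi, det_apply']
  refine Finset.sum_eq_zero fun π _ => ?_
  obtain ⟨y, hy⟩ := h π
  rw [Finset.prod_eq_zero (Finset.mem_univ y), mul_zero]
  rw [of_apply, if_neg]
  exact fun hc => hy hc.1 hc.2

omit [CharP R 2] in
theorem exists_perm_of_wC {m : ℕ} {β : Stair m → ℕ} (h : (wC β : R) ≠ 0) :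
    ∃ π : Equiv.Perm (Stair m), ∀ y, sCol (π y) = sCol y ∧ β (π y) = sRow y := by
  contrapose! h
  rw [wC, chi, det_apply']
  refine Finset.sum_eq_zero fun π _ => ?_
  obtain ⟨y, hy⟩ := h π
  rw [Finset.prod_eq_zero (Finset.mem_univ y), mul_zero]
  rw [of_apply, if_neg]
  exact fun hc => hy hc.1 hc.2

end Weights

/-- If low row labels are exactly low column labels, the low cells form the band. -/
theorem low_iff_band {α β : Stair (m + b) → ℕ} {π ρ : Equiv.Perm (Stair (m + b))}
    (hπ : ∀ y, α (π y) = sCol y ∧ sRow (π y) = sRow y)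
    (hρ : ∀ y, sCol (ρ y) = sCol y ∧ β (ρ y) = sRow y)
    (hiff : ∀ x, α x < b ↔ β x < b) (x : Stair (m + b)) :
    α x < b ↔ m ≤ sRow x + sCol x := by
  have injα : ∀ x y, sRow x = sRow y → α x = α y → x = y := by
    intro x y h1 h2
    obtain ⟨x', rfl⟩ := π.surjective x
    obtain ⟨y', rfl⟩ := π.surjective y
    rw [(hπ x').2, (hπ y').2] at h1
    rw [(hπ x').1, (hπ y').1] at h2
    rw [stair_ext h1 h2]
  have injβ : ∀ x y, sCol x = sCol y → β x = β y → x = y := by
    intro x y h1 h2
    obtain ⟨x', rfl⟩ := ρ.surjective x
    obtain ⟨y', rfl⟩ := ρ.surjective y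
    rw [(hρ x').1, (hρ y').1] at h1
    rw [(hρ x').2, (hρ y').2] at h2
    rw [stair_ext h2 h1]
  have bndα : ∀ x, sRow x + α x < m + b := by
    intro x
    obtain ⟨x', rfl⟩ := π.surjective x
    rw [(hπ x').1, (hπ x').2]
    exact stair_lt x'
  suffices H : ∀ n, ∀ x : Stair (m + b), m + b - sRow x = n →
      (α x < b ↔ m ≤ sRow x + sCol x) from H _ x rfl
  intro n
  induction n using Nat.strong_induction_on with
  | _ n ih =>
    have nonband : ∀ x : Stair (m + b), m + b - sRow x = n → sRow x + sCol x < m →
        ¬ α x < b := by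
      intro x hn hx hlow
      have hβ : β x < b := (hiff x).1 hlow
      let c : Fin b → Stair (m + b) := fun k =>
        mkCell (m - sCol x + k.val) (sCol x) (by have := k.isLt; omega)
      have hc : ∀ k, β (c k) < b := fun k => by
        refine (hiff _).1 ((ih (m + b - sRow (c k)) ?_ (c k) rfl).2 ?_)
        · have := k.isLt; simp only [c, sRow_mkCell]; omega
        · simp only [c, sRow_mkCell, sCol_mkCell]; omega
      let f : Option (Fin b) → Fin b := fun o => o.elim ⟨β x, hβ⟩ fun k => ⟨β (c k), hc k⟩
      have hf : Function.Injective f := by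
        rintro (_ | k) (_ | k') h <;> simp only [f, Option.elim, Fin.mk.injEq] at h
        · rfl
        · have := congrArg sRow (injβ x (c k') (by simp [c]) h)
          simp only [c, sRow_mkCell] at this; omega
        · have := congrArg sRow (injβ (c k) x (by simp [c]) h)
          simp only [c, sRow_mkCell] at this; omega
        · have := congrArg sRow (injβ (c k) (c k') (by simp [c]) h)
          simp only [c, sRow_mkCell] at this
          rw [Fin.ext (show k.val = k'.val by omega)]
      have := Fintype.card_le_of_injective f hf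
      simp at this
    intro x hn
    by_cases hband : m ≤ sRow x + sCol x
    · refine ⟨fun _ => hband, fun _ => ?_⟩
      by_contra hhigh
      have := bndα x
      let c : Fin (m - sRow x) → Stair (m + b) := fun k =>
        mkCell (sRow x) k.val (by have := k.isLt; omega)
      have hc : ∀ k, b ≤ α (c k) := fun k => by
        have := nonband (c k) (by simpa [c] using hn)
          (by have := k.isLt; simp only [c, sRow_mkCell, sCol_mkCell]; omega)
        omega
      let f : Option (Fin (m - sRow x)) → Fin (m - sRow x) := fun o =>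
        o.elim ⟨α x - b, by omega⟩ fun k => ⟨α (c k) - b, by
          have := bndα (c k); have := hc k
          have : sRow (c k) = sRow x := by simp [c]
          have := k.isLt; omega⟩
      have hf : Function.Injective f := by
        rintro (_ | k) (_ | k') h <;> simp only [f, Option.elim, Fin.mk.injEq] at h
        · rfl
        · have h2 := hc k'
          have := congrArg sCol (injα x (c k') (by simp [c]) (by omega))
          have := k'.isLt
          simp only [c, sCol_mkCell] at *; omega
        · have h2 := hc k
          have := congrArg sCol (injα (c k) x (by simp [c]) (by omega))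
          have := k.isLt
          simp only [c, sCol_mkCell] at *; omega
        · have := hc k
          have := hc k'
          have := congrArg sCol (injα (c k) (c k') (by simp [c]) (by omega))
          simp only [c, sCol_mkCell] at this
          rw [Fin.ext this]
      have := Fintype.card_le_of_injective f hf
      simp at this
    · exact ⟨fun h => absurd h (nonband x hn (by omega)), fun h => absurd h hband⟩

end Vale.Agent.P197
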