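import Vale.Agent.P197.Step

/-!
# P197: the band of width one
-/

namespace Vale.Agent.P197

open Matrix Finset

theorem band_one_row {m : ℕ} {x y : Band m 1} (h : sRow x.1 = sRow y.1) : x = y := by
  have := stair_lt x.1; have := stair_lt y.1; have := x.2; have := y.2
  exact Subtype.ext (stair_ext h (by omega))

theorem band_one_col {m : ℕ} {x y : Band m 1} (h : sCol x.1 = sCol y.1) : x = y := by
  have := stair_lt x.1; have := stair_lt y.1; have := x.2; have := y.2
  exact Subtype.ext (stair_ext (by omega) h)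

/-- The band of width one has one cell per row. -/
def bandOneEquiv (m : ℕ) : Band m 1 ≃ Fin (m + 1) where
  toFun x := ⟨sRow x.1, by have := stair_lt x.1; omega⟩
  invFun i := ⟨mkCell i.val (m - i.val) (by omega), by simp; omega⟩
  left_inv x := band_one_row (by simp)
  right_inv i := by simp

theorem bandG_one {m K : ℕ} {S : Type} [CommRing S] {Cl : Type} [Fintype Cl] [DecidableEq Cl]
    {sz : Cl → ℕ} (hsz : ∀ c, sz c = 1) (l' : Fin K → ℕ) (ι : Cl → Fin K)
    (E : BC sz ≃ Band m 1) :
    bandG l' ι E (fun _ _ _ => (1 : S)) = 1 := by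
  have hbR : ∀ α : Band m 1 → Fin 1, bR (R := S) (fun x => (α x : ℕ)) = 1 := by
    intro α
    refine Eq.trans ?_ (det_one (n := Band m 1))
    rw [bR]
    congr 1
    ext x y
    have := rkR_lt y
    rw [of_apply, one_apply]
    exact if_congr ⟨fun h => band_one_row h.2, fun h => ⟨by have := (α x).isLt; omega, by rw [h]⟩⟩
      rfl rfl
  have hbC : ∀ α : Band m 1 → Fin 1, bC (R := S) (fun x => (α x : ℕ)) = 1 := by
    intro α
    refine Eq.trans ?_ (det_one (n := Band m 1))
    rw [bC]
    congr 1
    ext x y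
    have := rkC_lt y
    rw [of_apply, one_apply]
    exact if_congr ⟨fun h => band_one_col h.1, fun h => ⟨by rw [h], by have := (α x).isLt; omega⟩⟩
      rfl rfl
  have hbD : ∀ α β : Band m 1 → ℕ, bDet l' ι E (fun _ _ _ => (1 : S)) α β = 1 := by
    intro α β
    refine Eq.trans ?_ (det_one (n := BC sz))
    rw [bDet]
    congr 1
    ext x y
    rw [of_apply, one_apply]
    refine if_congr ⟨fun h => ?_, fun h => by rw [h]⟩ rfl rfl
    obtain ⟨c, i⟩ := x; obtain ⟨c', i'⟩ := y
    obtain rfl : c = c' := h
    have := hsz c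
    exact congrArg (Sigma.mk c) (Fin.ext (by omega))
  have h1 := hbR fun _ => 0
  have h2 := hbC fun _ => 0
  simp only [Fin.val_zero] at h1 h2
  simp [bandG, hbD, h1, h2]

end Vale.Agent.P197
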