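import Vale.Agent.P197.Step

/-!
# P197: the band of width two

The band is read as a word `τ : Fin (2 m + 3) → Fin 4`; the high bit of a letter is one minus
the row label of its cell and the low bit one minus the column label.
-/

namespace Vale.Agent.P197

open Matrix Finset Polynomial

variable {m : ℕ}

/-- Reading order of the band of width two. -/
def bandPos (m : ℕ) : Band m 2 ≃ Fin (2 * m + 3) where
  toFun x := ⟨2 * sRow x.1 + (m + 1 - (sRow x.1 + sCol x.1)), by
    have := stair_lt x.1; have := x.2; omega⟩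
  invFun p := ⟨mkCell (p.val / 2) (m + 1 - p.val % 2 - p.val / 2) (by omega), by
    simp; omega⟩
  left_inv x := by
    have := stair_lt x.1; have := x.2
    refine Subtype.ext (stair_ext ?_ ?_) <;> simp <;> omega
  right_inv p := by
    apply Fin.ext
    have := p.isLt
    simp
    omega

theorem bandPos_val (x : Band m 2) :
    (bandPos m x : ℕ) = 2 * sRow x.1 + (m + 1 - (sRow x.1 + sCol x.1)) := rfl

/-- High bit. -/
def hiB (a : Fin 4) : ℕ := a.val / 2

/-- Low bit. -/
def loB (a : Fin 4) : ℕ := a.val % 2

/-- Row labels of a word. -/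
def aOf (τ : Fin (2 * m + 3) → Fin 4) (x : Band m 2) : ℕ := 1 - hiB (τ (bandPos m x))

/-- Column labels of a word. -/
def bOf (τ : Fin (2 * m + 3) → Fin 4) (x : Band m 2) : ℕ := 1 - loB (τ (bandPos m x))

/-- Row validity of a word. -/
def RowOK (τ : Fin (2 * m + 3) → Fin 4) : Prop :=
  (∀ p q : Fin (2 * m + 3), p.val % 2 = 0 → q.val = p.val + 1 → hiB (τ p) ≠ hiB (τ q)) ∧
    ∀ p : Fin (2 * m + 3), p.val = 2 * m + 2 → hiB (τ p) = 1

/-- Column validity of a word. -/
def ColOK (τ : Fin (2 * m + 3) → Fin 4) : Prop :=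
  (∀ p q : Fin (2 * m + 3), p.val % 2 = 1 → q.val = p.val + 1 → loB (τ p) ≠ loB (τ q)) ∧
    ∀ p : Fin (2 * m + 3), p.val = 0 → loB (τ p) = 1

instance (τ : Fin (2 * m + 3) → Fin 4) : Decidable (RowOK τ) := by unfold RowOK; infer_instance

instance (τ : Fin (2 * m + 3) → Fin 4) : Decidable (ColOK τ) := by unfold ColOK; infer_instance

theorem det_indicator {R : Type*} [CommRing R] [CharP R 2] {ι κ : Type*} [Fintype ι]
    [DecidableEq ι] [DecidableEq κ] (f g : ι → κ) (hg : Function.Injective g) :
    det (of fun x y => if f x = g y then (1 : R) else 0)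
      = if Function.Injective f ∧ (∀ x, ∃ y, f x = g y) then 1 else 0 := by
  by_cases hf : Function.Injective f ∧ ∀ x, ∃ y, f x = g y
  · rw [if_pos hf]
    choose π hπ using hf.2
    have hπi : Function.Injective π := fun x y h => hf.1 (by rw [hπ x, hπ y, h])
    let p : Equiv.Perm ι := Equiv.ofBijective π (Finite.injective_iff_bijective.1 hπi)
    have : (of fun x y => if f x = g y then (1 : R) else 0)
        = (1 : Matrix ι ι R).submatrix p id := by
      ext x y
      rw [of_apply, submatrix_apply, one_apply]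
      exact if_congr ⟨fun h => hg ((hπ x).symm.trans h), fun h => by
        rw [hπ x]; exact congrArg g h⟩ rfl rfl
    rw [this, det_permute, det_one, mul_one, cast_sign_two]
  · rw [if_neg hf]
    rw [not_and_or] at hf
    rcases hf with hf | hf
    · rw [Function.Injective] at hf
      push Not at hf
      obtain ⟨x, y, hxy, hne⟩ := hf
      exact det_zero_of_row_eq hne (funext fun j => by simp [hxy])
    · push Not at hf
      obtain ⟨x, hx⟩ := hf
      exact det_eq_zero_of_row_eq_zero x fun y => if_neg (hx y)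

theorem hiB_le (a : Fin 4) : hiB a ≤ 1 := by have := a.isLt; unfold hiB; omega

theorem loB_le (a : Fin 4) : loB a ≤ 1 := by unfold loB; omega

theorem bR_word {R : Type*} [CommRing R] [CharP R 2] (τ : Fin (2 * m + 3) → Fin 4) :
    bR (R := R) (aOf τ) = if RowOK τ then 1 else 0 := by
  rw [bR]
  have hM : (of fun x y : Band m 2 =>
      if aOf τ x = rkR y ∧ sRow x.1 = sRow y.1 then (1 : R) else 0)
      = of fun x y : Band m 2 =>
          if (aOf τ x, sRow x.1) = (rkR y, sRow y.1) then (1 : R) else 0 := by
    ext x y; simp [Prod.ext_iff]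
  rw [hM, det_indicator]
  · refine if_congr ⟨fun ⟨h1, h2⟩ => ⟨?_, ?_⟩, fun ⟨h1, h2⟩ => ⟨?_, ?_⟩⟩ rfl rfl
    · intro p q hp hq heq
      obtain ⟨x, rfl⟩ := (bandPos m).surjective p
      obtain ⟨y, rfl⟩ := (bandPos m).surjective q
      have := bandPos_val x; have := bandPos_val y
      have := stair_lt x.1; have := stair_lt y.1; have := x.2; have := y.2
      have hxy : x = y := h1 (by
        simp only [aOf, Prod.mk.injEq]
        exact ⟨by rw [heq], by omega⟩)
      rw [hxy] at hq
      omega
    · intro p hp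
      obtain ⟨x, rfl⟩ := (bandPos m).surjective p
      obtain ⟨y, hy⟩ := h2 x
      simp only [aOf, Prod.mk.injEq, rkR] at hy
      have := bandPos_val x
      have := stair_lt x.1; have := stair_lt y.1; have := x.2; have := y.2
      have := hiB_le (τ (bandPos m x))
      omega
    · intro x y hxy
      simp only [aOf, Prod.mk.injEq] at hxy
      have := bandPos_val x; have := bandPos_val y
      have := stair_lt x.1; have := stair_lt y.1; have := x.2; have := y.2
      have := hiB_le (τ (bandPos m x)); have := hiB_le (τ (bandPos m y))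
      by_cases hd : sRow x.1 + sCol x.1 = sRow y.1 + sCol y.1
      · exact Subtype.ext (stair_ext hxy.2 (by omega))
      · exfalso
        rcases lt_or_gt_of_ne hd with hd | hd
        · exact h1 (bandPos m y) (bandPos m x) (by omega) (by omega) (by omega)
        · exact h1 (bandPos m x) (bandPos m y) (by omega) (by omega) (by omega)
    · intro x
      have := bandPos_val x
      have := stair_lt x.1; have := x.2
      have := hiB_le (τ (bandPos m x))
      have hlast : sRow x.1 = m + 1 → hiB (τ (bandPos m x)) = 1 := fun h => h2 _ (by omega)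
      refine ⟨⟨mkCell (sRow x.1) (m - sRow x.1 + aOf τ x) ?_, ?_⟩, ?_⟩
      · simp only [aOf]
        by_cases h : sRow x.1 = m + 1
        · have := hlast h; omega
        · omega
      · simp only [sRow_mkCell, sCol_mkCell]
        omega
      · simp [rkR]
  · intro x y h
    simp only [Prod.mk.injEq, rkR] at h
    have := stair_lt x.1; have := stair_lt y.1; have := x.2; have := y.2
    exact Subtype.ext (stair_ext h.2 (by omega))

theorem bC_word {R : Type*} [CommRing R] [CharP R 2] (τ : Fin (2 * m + 3) → Fin 4) :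
    bC (R := R) (bOf τ) = if ColOK τ then 1 else 0 := by
  rw [bC]
  have hM : (of fun x y : Band m 2 =>
      if sCol x.1 = sCol y.1 ∧ bOf τ x = rkC y then (1 : R) else 0)
      = of fun x y : Band m 2 =>
          if (sCol x.1, bOf τ x) = (sCol y.1, rkC y) then (1 : R) else 0 := by
    ext x y; simp [Prod.ext_iff]
  rw [hM, det_indicator]
  · refine if_congr ⟨fun ⟨h1, h2⟩ => ⟨?_, ?_⟩, fun ⟨h1, h2⟩ => ⟨?_, ?_⟩⟩ rfl rfl
    · intro p q hp hq heq
      obtain ⟨x, rfl⟩ := (bandPos m).surjective p
      obtain ⟨y, rfl⟩ := (bandPos m).surjective q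
      have := bandPos_val x; have := bandPos_val y
      have := stair_lt x.1; have := stair_lt y.1; have := x.2; have := y.2
      have hxy : x = y := h1 (by
        simp only [bOf, Prod.mk.injEq]
        exact ⟨by omega, by rw [heq]⟩)
      rw [hxy] at hq
      omega
    · intro p hp
      obtain ⟨x, rfl⟩ := (bandPos m).surjective p
      obtain ⟨y, hy⟩ := h2 x
      simp only [bOf, Prod.mk.injEq, rkC] at hy
      have := bandPos_val x
      have := stair_lt x.1; have := stair_lt y.1; have := x.2; have := y.2
      have := loB_le (τ (bandPos m x))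
      omega
    · intro x y hxy
      simp only [bOf, Prod.mk.injEq] at hxy
      have := bandPos_val x; have := bandPos_val y
      have := stair_lt x.1; have := stair_lt y.1; have := x.2; have := y.2
      have := loB_le (τ (bandPos m x)); have := loB_le (τ (bandPos m y))
      by_cases hd : sRow x.1 + sCol x.1 = sRow y.1 + sCol y.1
      · exact Subtype.ext (stair_ext (by omega) hxy.1)
      · exfalso
        rcases lt_or_gt_of_ne hd with hd | hd
        · exact h1 (bandPos m x) (bandPos m y) (by omega) (by omega) (by omega)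
        · exact h1 (bandPos m y) (bandPos m x) (by omega) (by omega) (by omega)
    · intro x
      have := bandPos_val x
      have := stair_lt x.1; have := x.2
      have := loB_le (τ (bandPos m x))
      have hfirst : sCol x.1 = m + 1 → loB (τ (bandPos m x)) = 1 := fun h => h2 _ (by omega)
      refine ⟨⟨mkCell (m - sCol x.1 + bOf τ x) (sCol x.1) ?_, ?_⟩, ?_⟩
      · simp only [bOf]
        by_cases h : sCol x.1 = m + 1
        · have := hfirst h; omega
        · omega
      · simp only [sRow_mkCell, sCol_mkCell]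
        omega
      · simp [rkC]
  · intro x y h
    simp only [Prod.mk.injEq, rkC] at h
    have := stair_lt x.1; have := stair_lt y.1; have := x.2; have := y.2
    exact Subtype.ext (stair_ext (by omega) h.1)

/-- Whether two labels differ, as a number. -/
def nAB (a c : ℕ) : ℕ := if a = c then 0 else 1

/-- The weight on band cells. -/
noncomputable def zeta2 (R : Type) [CommRing R] (r a c : ℕ) : R[X][X] :=
  C (X ^ (r * (2 * (1 - a) + (1 - c)))) * X ^ nAB a c

/-- Contribution of a letter to the second degree. -/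
def nLet (a : Fin 4) : ℕ := if hiB a = loB a then 0 else 1

variable {Cl : Type} [Fintype Cl] [DecidableEq Cl] {sz : Cl → ℕ}

/-- The Vandermonde part. -/
noncomputable def detS (R : Type) [CommRing R] (r0 : Cl → ℕ) (t : BC sz → Fin 4) : R[X] :=
  det (of fun x y : BC sz =>
    if x.1 = y.1 then (X : R[X]) ^ ((r0 y.1 + y.2.val) * (t x).val) else 0)

theorem bDet_word {R : Type} [CommRing R] {K : ℕ} (l' : Fin K → ℕ) (ι : Cl → Fin K)
    (E : BC sz ≃ Band m 2) (τ : Fin (2 * m + 3) → Fin 4) :
    bDet l' ι E (zeta2 R) (aOf τ) (bOf τ)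
      = C (detS R (fun c => l' (ι c)) (fun x => τ (bandPos m (E x))))
        * X ^ (∑ x, nLet (τ (bandPos m (E x)))) := by
  rw [← Finset.prod_pow_eq_pow_sum, detS, RingHom.map_det, mul_comm, bDet]
  refine Eq.trans ?_ (det_mul_column _ _)
  congr 1
  ext1 x y
  have hw : ∀ (a : Fin 4), 2 * (1 - (1 - hiB a)) + (1 - (1 - loB a)) = a.val ∧
      nAB (1 - hiB a) (1 - loB a) = nLet a := by decide
  obtain ⟨h1, h2⟩ := hw (τ (bandPos m (E x)))
  simp only [of_apply, RingHom.mapMatrix_apply, map_apply, zeta2, aOf, bOf]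
  rw [h1, h2]
  split_ifs
  · rw [mul_comm]
  · simp

theorem detS_eq_zero_of_eq {R : Type} [CommRing R] (r0 : Cl → ℕ) (t : BC sz → Fin 4) {x x' : BC sz}
    (hne : x ≠ x') (hc : x.1 = x'.1) (ht : t x = t x') : detS R r0 t = 0 :=
  det_zero_of_row_eq hne (funext fun y => by simp [hc, ht])

theorem detS_perm {R : Type} [CommRing R] [CharP R 2] (r0 : Cl → ℕ) (t : BC sz → Fin 4)
    (p : ∀ c, Equiv.Perm (Fin (sz c))) :
    detS R r0 (fun x => t ⟨x.1, p x.1 x.2⟩) = detS R r0 t := by
  have h := det_permute (Equiv.sigmaCongrRight p) (of fun x y : BC sz =>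
    if x.1 = y.1 then (X : R[X]) ^ ((r0 y.1 + y.2.val) * (t x).val) else 0)
  rw [cast_sign_two, one_mul] at h
  rw [detS, detS, ← h]
  congr 1

theorem detS_ne_zero {R : Type} [CommRing R] [IsDomain R] (r0 : Cl → ℕ) (t : BC sz → Fin 4)
    (ht : ∀ c, Function.Injective fun i : Fin (sz c) => t ⟨c, i⟩) : detS R r0 t ≠ 0 := by
  intro h0
  obtain ⟨v, hv, hMv⟩ := exists_mulVec_eq_zero_iff.2 h0
  apply hv
  funext ⟨c, j⟩
  let x : Fin (sz c) → R[X] := fun i => X ^ (t ⟨c, i⟩).val
  have hx : Function.Injective x := by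
    intro i i' h
    have := congrArg natDegree h
    simp only [x, natDegree_X_pow] at this
    exact ht c (Fin.ext this)
  have hne : det (of fun i j => x i ^ r0 c * vandermonde x i j) ≠ 0 := by
    rw [det_mul_column]
    refine mul_ne_zero (Finset.prod_ne_zero_iff.2 fun i _ => pow_ne_zero _ ?_)
      (det_vandermonde_ne_zero_iff.2 hx)
    exact pow_ne_zero _ X_ne_zero
  by_contra hcj
  apply hne
  refine exists_mulVec_eq_zero_iff.1 ⟨fun j => v ⟨c, j⟩, fun h => hcj (congrFun h j), ?_⟩
  funext i
  have hi := congrFun hMv ⟨c, i⟩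
  simp only [mulVec, dotProduct, of_apply, Pi.zero_apply, vandermonde_apply, x] at hi ⊢
  rw [Fintype.sum_sigma, Finset.sum_eq_single c] at hi
  · refine Eq.trans (Finset.sum_congr rfl fun j _ => ?_) hi
    rw [if_pos rfl, ← pow_add, ← pow_mul]
    congr 2
    ring
  · intro c' _ hne
    simp [Ne.symm hne]
  · simp

theorem coeff_bandG_two {R : Type} [CommRing R] [CharP R 2] {K : ℕ} (l' : Fin K → ℕ)
    (ι : Cl → Fin K) (E : BC sz ≃ Band m 2) (n : ℕ) :
    (bandG l' ι E (zeta2 R)).coeff n
      = ∑ τ ∈ Finset.univ.filter (fun τ : Fin (2 * m + 3) → Fin 4 =>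
          RowOK τ ∧ ColOK τ ∧ ∑ x, nLet (τ (bandPos m (E x))) = n),
          detS R (fun c => l' (ι c)) (fun x => τ (bandPos m (E x))) := by
  let enc : (Fin (2 * m + 3) → Fin 4) ≃ (Band m 2 → Fin 2) × (Band m 2 → Fin 2) :=
    { toFun := fun τ => (fun x => ⟨aOf τ x, by unfold aOf; omega⟩,
        fun x => ⟨bOf τ x, by unfold bOf; omega⟩)
      invFun := fun q p => ⟨2 * (1 - (q.1 ((bandPos m).symm p)).val)
        + (1 - (q.2 ((bandPos m).symm p)).val), by omega⟩
      left_inv := fun τ => by
        funext p
        apply Fin.ext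
        have := (τ p).isLt
        simp only [aOf, bOf, Equiv.apply_symm_apply, hiB, loB]
        omega
      right_inv := fun q => by
        refine Prod.ext (funext fun x => Fin.ext ?_) (funext fun x => Fin.ext ?_) <;>
          have := (q.1 x).isLt <;> have := (q.2 x).isLt <;>
          simp only [aOf, bOf, Equiv.symm_apply_apply, hiB, loB] <;> omega }
  rw [bandG, ← Fintype.sum_prod_type', ← Equiv.sum_comp enc, finsetSum_coeff, Finset.sum_filter]
  refine Finset.sum_congr rfl fun τ _ => ?_
  show (bR (aOf τ) * bC (bOf τ) * bDet l' ι E (zeta2 R) (aOf τ) (bOf τ)).coeff n = _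
  rw [bR_word, bC_word, bDet_word]
  by_cases h1 : RowOK τ <;> by_cases h2 : ColOK τ <;>
    simp [h1, h2, coeff_C_mul_X_pow, eq_comm]

end Vale.Agent.P197
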