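import Mathlib

/-!
# P197: polytabloids as functions, outer products, and the property `Good`

A labelling `s : X → ℕ` is a row labelling (a tabloid when its fibres have the
right sizes). A polytabloid is the function sending a labelling to its
coefficient, namely the determinant `poly`.
-/

namespace Vale.Agent.P197

open Matrix

/-- Triangular numbers. -/
def N : ℕ → ℕ
  | 0 => 0
  | m + 1 => N m + (m + 1)

theorem N_succ (m : ℕ) : N (m + 1) = N m + (m + 1) := rfl

theorem two_mul_N (m : ℕ) : 2 * N m = m * (m + 1) := by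
  induction m with
  | zero => rfl
  | succ m ih => rw [N_succ, Nat.mul_add, ih]; ring

theorem N_eq (m : ℕ) : N m = m * (m + 1) / 2 := by
  have := two_mul_N m; omega

/-- Functions on labellings. -/
abbrev Fn (X : Type) := (X → ℕ) → ℂ

/-- Functions on pairs of labellings. -/
abbrev Fn2 (X : Type) := (X → ℕ) → (X → ℕ) → ℂ

/-- Action of permutations on functions on labellings. -/
def permL {X : Type} (σ : Equiv.Perm X) : Fn X →ₗ[ℂ] Fn X where
  toFun f := fun s => f (s ∘ σ)
  map_add' _ _ := rfl
  map_smul' _ _ := rfl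

@[simp] theorem permL_apply {X : Type} (σ : Equiv.Perm X) (f : Fn X) (s : X → ℕ) :
    permL σ f s = f (s ∘ σ) := rfl

/-- Diagonal action of permutations on functions on pairs of labellings. -/
def perm2 {X : Type} (σ : Equiv.Perm X) : Fn2 X →ₗ[ℂ] Fn2 X where
  toFun F := fun s t => F (s ∘ σ) (t ∘ σ)
  map_add' _ _ := rfl
  map_smul' _ _ := rfl

@[simp] theorem perm2_apply {X : Type} (σ : Equiv.Perm X) (F : Fn2 X) (s t : X → ℕ) :
    perm2 σ F s t = F (s ∘ σ) (t ∘ σ) := rfl

/-- Outer product. -/
def outer {X : Type} : Fn X →ₗ[ℂ] Fn X →ₗ[ℂ] Fn2 X :=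
  LinearMap.mk₂ ℂ (fun f g => fun s t => f s * g t)
    (by intros; funext s t; simp [add_mul])
    (by intros; funext s t; simp [mul_assoc])
    (by intros; funext s t; simp [mul_add])
    (by intros; funext s t; simp [mul_left_comm])

@[simp] theorem outer_apply {X : Type} (f g : Fn X) (s t : X → ℕ) :
    outer f g s t = f s * g t := rfl

section Shape

variable {R : Type*} [CommRing R] {D X : Type} [Fintype D] [DecidableEq D]

/-- `chi col row b A s = det [A (b y') = col y ∧ s (b y') = row y]`. -/
def chi (col row : D → ℕ) (b : D ≃ X) (A s : X → ℕ) : R :=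
  det (of fun y' y : D => if A (b y') = col y ∧ s (b y') = row y then (1 : R) else 0)

/-- The polytabloid of the bijective tableau `T`. -/
def poly (col row : D → ℕ) (T : D ≃ X) : Fn X := fun s =>
  det (of fun x y : D => if col x = col y ∧ s (T x) = row y then (1 : ℂ) else 0)

/-- The Specht module: the span of all polytabloids. -/
def spec (col row : D → ℕ) (X : Type) : Submodule ℂ (Fn X) :=
  Submodule.span ℂ (Set.range fun T : D ≃ X => poly col row T)

theorem poly_mem_spec (col row : D → ℕ) (T : D ≃ X) : poly col row T ∈ spec col row X :=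
  Submodule.subset_span ⟨T, rfl⟩

theorem permL_poly (col row : D → ℕ) (T : D ≃ X) (σ : Equiv.Perm X) :
    permL σ (poly col row T) = poly col row (T.trans σ) := rfl

theorem poly_trans_apply (col row : D → ℕ) (T : D ≃ X) (σ : Equiv.Perm X) (s : X → ℕ) :
    poly col row (T.trans σ) s = poly col row T (s ∘ σ) := rfl

variable [Fintype X] [DecidableEq X]

theorem chi_comp (col row : D → ℕ) (b : D ≃ X) (g : Equiv.Perm X) (A s : X → ℕ) :
    chi col row b (A ∘ g) (s ∘ g)
      = (Equiv.Perm.sign g : R) * chi col row b A s := by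
  have key : Equiv.Perm.sign (b.symm.permCongr g) = Equiv.Perm.sign g :=
    Equiv.Perm.sign_permCongr _ _
  rw [chi, chi, ← key, ← det_permute]
  congr 1
  ext y' y
  simp [Equiv.permCongr_apply]

/-- `chi` of a tableau-type `A` is, up to sign, a polytabloid. -/
theorem poly_eq_chi (col row : D → ℕ) (b T : D ≃ X) (A : X → ℕ)
    (hA : ∀ x, A (T x) = col x) (s : X → ℕ) :
    poly col row T s
      = (Equiv.Perm.sign (T.trans b.symm) : ℂ) * chi col row b A s := by
  rw [chi, poly, ← det_permute]
  congr 1
  ext x y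
  simp [hA]

theorem chi_mem_spec (col row : D → ℕ) (b : D ≃ X) (A : X → ℕ) :
    (fun s => chi col row b A s) ∈ spec col row X := by
  by_cases h : ∃ T : D ≃ X, ∀ x, A (T x) = col x
  · obtain ⟨T, hT⟩ := h
    have : (fun s => chi col row b A s)
        = ((Equiv.Perm.sign (T.trans b.symm) : ℂ)) • poly col row T := by
      funext s
      rw [Pi.smul_apply, smul_eq_mul, poly_eq_chi col row b T A hT s, ← mul_assoc]
      rcases Int.units_eq_one_or (Equiv.Perm.sign (T.trans b.symm)) with hs | hs <;> simp [hs]
    rw [this]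
    exact Submodule.smul_mem _ _ (poly_mem_spec col row T)
  · have : (fun s => chi col row b A s) = (0 : Fn X) := by
      funext s
      rw [chi, det_apply', Pi.zero_apply]
      refine Finset.sum_eq_zero fun π _ => ?_
      obtain ⟨y, hy⟩ : ∃ y, A (b (π y)) ≠ col y := by
        by_contra hc
        push Not at hc
        exact h ⟨π.trans b, hc⟩
      rw [Finset.prod_eq_zero (Finset.mem_univ y)]
      · simp
      · simp [hy]
    rw [this]
    exact zero_mem _

theorem permL_mem_spec (col row : D → ℕ) (σ : Equiv.Perm X) {f : Fn X}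
    (hf : f ∈ spec col row X) : permL σ f ∈ spec col row X := by
  refine Submodule.span_induction ?_ ?_ ?_ ?_ hf
  · rintro _ ⟨T, rfl⟩
    rw [permL_poly]
    exact poly_mem_spec col row _
  · simp
  · intro x y _ _ hx hy
    rw [map_add]
    exact add_mem hx hy
  · intro a x _ hx
    rw [map_smul]
    exact Submodule.smul_mem _ a hx

end Shape

/-! ### Shapes given by column lengths, and the staircase -/

/-- The cells of the diagram with column lengths `l`. -/
abbrev Cells {K : ℕ} (l : Fin K → ℕ) := Σ k : Fin K, Fin (l k)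

/-- Column index of a cell. -/
def cCol {K : ℕ} {l : Fin K → ℕ} (x : Cells l) : ℕ := x.1.val

/-- Row index of a cell. -/
def cRow {K : ℕ} {l : Fin K → ℕ} (x : Cells l) : ℕ := x.2.val

/-- The cells of the staircase `(m, m-1, …, 1)`. -/
abbrev Stair (m : ℕ) := {c : Fin m × Fin m // c.1.val + c.2.val < m}

/-- Row index in the staircase. -/
def sRow {m : ℕ} (x : Stair m) : ℕ := x.1.1.val

/-- Column index in the staircase. -/
def sCol {m : ℕ} (x : Stair m) : ℕ := x.1.2.val

/-- The staircase Specht module. -/
abbrev specR (m : ℕ) (X : Type) : Submodule ℂ (Fn X) := spec (sCol (m := m)) sRow X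

/-- `P_m`: the span of outer products of staircase polytabloids. -/
noncomputable def Prod2 (m : ℕ) (X : Type) : Submodule ℂ (Fn2 X) :=
  Submodule.map₂ outer (specR m X) (specR m X)

theorem outer_mem_Prod2 {m : ℕ} {X : Type} {f g : Fn X} (hf : f ∈ specR m X)
    (hg : g ∈ specR m X) : outer f g ∈ Prod2 m X :=
  Submodule.apply_mem_map₂ _ hf hg

/-- `Good m l`: some equivariant map into `Prod2 m` is nonzero on the polytabloids of shape `l`. -/
def Good (m : ℕ) {K : ℕ} (l : Fin K → ℕ) : Prop :=
  ∀ (X : Type) [Fintype X] [DecidableEq X], Fintype.card X = N m →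
    ∃ φ : Fn X →ₗ[ℂ] Fn2 X,
      (∀ σ f, φ (permL σ f) = perm2 σ (φ f)) ∧ (∀ f, φ f ∈ Prod2 m X) ∧
        ∀ T : Cells l ≃ X, φ (poly cCol cRow T) ≠ 0

/-- By equivariance it is enough to be nonzero on one polytabloid. -/
theorem good_of_exists {X : Type} {K : ℕ} {l : Fin K → ℕ} (φ : Fn X →ₗ[ℂ] Fn2 X)
    (he : ∀ σ f, φ (permL σ f) = perm2 σ (φ f)) (T₀ : Cells l ≃ X)
    (h : φ (poly cCol cRow T₀) ≠ 0) (T : Cells l ≃ X) : φ (poly cCol cRow T) ≠ 0 := by
  intro h0
  apply h
  have hT : T₀ = T.trans (T.symm.trans T₀) := by ext x; simp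
  rw [hT, ← permL_poly, he, h0, map_zero]

/-- A transport of functions of labellings along a bijection. -/
def pullL {X Y : Type} (e : Y ≃ X) : Fn X →ₗ[ℂ] Fn Y where
  toFun f := fun u => f (u ∘ e.symm)
  map_add' _ _ := rfl
  map_smul' _ _ := rfl

theorem pullL_poly {D X Y : Type} [Fintype D] [DecidableEq D] (col row : D → ℕ) (e : Y ≃ X)
    (T : D ≃ X) : pullL e (poly col row T) = poly col row (T.trans e.symm) := rfl

end Vale.Agent.P197
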