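import Vale.Agent.P197.Basic
import Vale.Agent.P197.Specht.Fixed

/-!
# P197: from `Good` to the tensor square of the staircase Specht module

Formal combinations of row labellings sit inside functions on labellings, polytabloid for
polytabloid; tensors sit inside functions of two labellings.
-/

namespace Vale.Agent.P197

open Equiv Finset TensorProduct

section coe

variable {α : Type} [Fintype α] [DecidableEq α] {lam : YoungDiagram}

/-- A formal combination as a function. -/
noncomputable def toFn (α : Type) : Specht.Words α →ₗ[ℂ] Fn α where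
  toFun v := fun s => v s
  map_add' _ _ := rfl
  map_smul' _ _ := rfl

@[simp] lemma toFn_apply (v : Specht.Words α) (s : α → ℕ) : toFn α v s = v s := rfl

lemma toFn_act (g : Perm α) (v : Specht.Words α) :
    toFn α (Specht.act α g v) = permL g (toFn α v) :=
  funext fun s => Specht.act_apply g v s

lemma toFn_poly (T : α ≃ lam.cells) :
    toFn α (Specht.poly T)
      = poly (fun c : lam.cells => c.1.2) (fun c : lam.cells => c.1.1) T.symm := by
  funext s
  rw [toFn_apply, Specht.poly_eq, Finsupp.finsetSum_apply, poly, Matrix.det_apply']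
  have h0 : ∀ π : Perm lam.cells, (∏ y, (Matrix.of fun x y : lam.cells =>
      if x.1.2 = y.1.2 ∧ s (T.symm x) = y.1.1 then (1 : ℂ) else 0) (π y) y)
      = if ∀ y, (π y).1.2 = y.1.2 ∧ s (T.symm (π y)) = y.1.1 then 1 else 0 := by
    intro π
    simp only [Matrix.of_apply]
    rw [Fintype.prod_ite_zero]
    simp
  simp only [h0, mul_ite, mul_one, mul_zero]
  rw [← Finset.sum_filter]
  simp only [Finsupp.single_apply]
  rw [← Finset.sum_filter]
  refine Finset.sum_nbij' (fun g => T.permCongr g) (fun π => T.symm.permCongr π) ?_ ?_ ?_ ?_ ?_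
  · intro g hg
    simp only [Finset.mem_filter, Finset.mem_univ, true_and, Specht.mem_colGroup] at hg ⊢
    intro y
    refine ⟨by simpa [Specht.col, Equiv.permCongr_apply] using hg.1 (T.symm y), ?_⟩
    rw [← hg.2]
    simp [Specht.row, Equiv.permCongr_apply]
  · intro π hπ
    simp only [Finset.mem_filter, Finset.mem_univ, true_and, Specht.mem_colGroup] at hπ ⊢
    refine ⟨fun a => by simpa [Specht.col, Equiv.permCongr_apply] using (hπ (T a)).1, funext fun a => ?_⟩
    have h := (hπ (π⁻¹ (T a))).2
    simp only [← Perm.mul_apply, mul_inv_cancel, Perm.one_apply, Equiv.symm_apply_apply] at h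
    rw [h]
    simp [Specht.row, Equiv.permCongr_def]
  · intro g _; ext a; simp [Equiv.permCongr_apply]
  · intro π _; ext a <;> simp [Equiv.permCongr_apply]
  · intro g _; simp [Specht.sgn, Equiv.Perm.sign_permCongr]

end coe

/-- Polytabloids do not depend on the names of the cells. -/
lemma poly_reindex {D E X : Type} [Fintype D] [DecidableEq D] [Fintype E] [DecidableEq E]
    (col row : D → ℕ) (e : E ≃ D) (T : D ≃ X) :
    poly (col ∘ e) (row ∘ e) (e.trans T) = poly col row T := by
  funext s
  simp only [poly]
  rw [← Matrix.det_submatrix_equiv_self e]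
  rfl

/-- The column lengths of a diagram. -/
def colLens (mu : YoungDiagram) : Fin (mu.rowLen 0) → ℕ := fun k => mu.colLen k

/-- The cells of a diagram, column by column. -/
def cellsEquiv (mu : YoungDiagram) : Cells (colLens mu) ≃ mu.cells where
  toFun x := ⟨(x.2.val, x.1.val),
    (YoungDiagram.mem_cells _).2 (YoungDiagram.mem_iff_lt_colLen.2 x.2.isLt)⟩
  invFun c := ⟨⟨c.1.2, lt_of_lt_of_le
      (YoungDiagram.mem_iff_lt_rowLen.1 ((YoungDiagram.mem_cells _).1 c.2))
      (mu.rowLen_anti 0 _ (Nat.zero_le _))⟩,
    ⟨c.1.1, YoungDiagram.mem_iff_lt_colLen.1 ((YoungDiagram.mem_cells _).1 c.2)⟩⟩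
  left_inv _ := rfl
  right_inv _ := rfl

/-- The two models of the staircase. -/
def stairEquiv (m : ℕ) : Stair m ≃ (Specht.staircase m).cells where
  toFun x := ⟨(x.1.1.val, x.1.2.val),
    (YoungDiagram.mem_cells _).2 (Specht.mem_staircase.2 x.2)⟩
  invFun c := ⟨(⟨c.1.1, lt_of_le_of_lt (Nat.le_add_right _ _)
      (Specht.mem_staircase.1 ((YoungDiagram.mem_cells c.1).1 c.2))⟩,
    ⟨c.1.2, lt_of_le_of_lt (Nat.le_add_left _ _)
      (Specht.mem_staircase.1 ((YoungDiagram.mem_cells c.1).1 c.2))⟩),
    Specht.mem_staircase.1 ((YoungDiagram.mem_cells c.1).1 c.2)⟩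
  left_inv _ := rfl
  right_inv _ := rfl

/-- A tensor as a function of two labellings. -/
noncomputable def tensFn {α : Type} (W : Submodule ℂ (Specht.Words α)) : W ⊗[ℂ] W →ₗ[ℂ] Fn2 α where
  toFun t := fun s s' => finsuppTensorFinsupp' ℂ (α → ℕ) (α → ℕ)
    (TensorProduct.map W.subtype W.subtype t) (s, s')
  map_add' _ _ := by funext s s'; simp
  map_smul' _ _ := by funext s s'; simp

lemma tensFn_tmul {α : Type} (W : Submodule ℂ (Specht.Words α)) (a b : W) :
    tensFn W (a ⊗ₜ b) = outer (toFn α a) (toFn α b) := by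
  funext s s'
  simp [tensFn, finsuppTensorFinsupp'_apply_apply]

lemma tensFn_injective {α : Type} (W : Submodule ℂ (Specht.Words α)) :
    Function.Injective (tensFn W) := by
  intro t t' h
  have : Module.Free ℂ W := Module.Free.of_basis (Module.Basis.ofVectorSpace ℂ W)
  apply TensorProduct.map_injective_of_flat_flat W.subtype W.subtype W.injective_subtype
    W.injective_subtype
  apply (finsuppTensorFinsupp' ℂ (α → ℕ) (α → ℕ)).injective
  ext ⟨s, s'⟩
  exact congrFun (congrFun h s) s'

variable {α : Type} [Fintype α] [DecidableEq α]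

/-- The staircase span sits inside the tensor square. -/
lemma prod2_le {m : ℕ} (T : α ≃ (Specht.staircase m).cells) :
    Prod2 m α ≤ LinearMap.range (tensFn (Specht.specht T).toSubmodule) := by
  have key : specR m α ≤ (Specht.specht T).toSubmodule.map (toFn α) := by
    refine Submodule.span_le.2 ?_
    rintro _ ⟨U, rfl⟩
    refine ⟨Specht.poly (U.symm.trans (stairEquiv m)), ?_, ?_⟩
    · rw [Specht.specht_eq T (U.symm.trans (stairEquiv m))]
      exact Specht.poly_mem _
    · rw [toFn_poly, ← poly_reindex _ _ (stairEquiv m)]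
      have : (stairEquiv m).trans (U.symm.trans (stairEquiv m)).symm = U := by ext x; simp
      rw [this]
      rfl
  refine Submodule.map₂_le.2 fun f hf g hg => ?_
  obtain ⟨v, hv, rfl⟩ := key hf
  obtain ⟨w, hw, rfl⟩ := key hg
  exact ⟨⟨v, hv⟩ ⊗ₜ ⟨w, hw⟩, tensFn_tmul _ _ _⟩

/-- `Good` gives a nonzero intertwiner into the tensor square. -/
theorem exists_intertwiner {m : ℕ} {mu : YoungDiagram} (T : α ≃ (Specht.staircase m).cells)
    (U : α ≃ mu.cells) (hG : Good m (colLens mu)) :
    ∃ f : (Specht.spechtRep U).IntertwiningMap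
      ((Specht.spechtRep T).tprod (Specht.spechtRep T)), f ≠ 0 := by
  have hcard : Fintype.card α = N m := by
    rw [Fintype.card_congr T, Fintype.card_coe, N_eq]
    exact Specht.card_staircase m
  obtain ⟨φ, he, hmem, hne⟩ := hG α hcard
  set W := (Specht.specht T).toSubmodule
  set e := LinearEquiv.ofInjective (tensFn W) (tensFn_injective W)
  let f : (Specht.specht U).toSubmodule →ₗ[ℂ] W ⊗[ℂ] W :=
    e.symm.toLinearMap ∘ₗ LinearMap.codRestrict (LinearMap.range (tensFn W))
      (φ ∘ₗ toFn α ∘ₗ (Specht.specht U).toSubmodule.subtype) fun v => prod2_le T (hmem _)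
  have hf : ∀ v, tensFn W (f v) = φ (toFn α v) := fun v => by
    show tensFn W (e.symm _) = _
    rw [LinearEquiv.ofInjective_symm_apply]
    rfl
  have hrep : ∀ (g : Perm α) (t : W ⊗[ℂ] W),
      tensFn W ((Specht.spechtRep T).tprod (Specht.spechtRep T) g t)
        = perm2 g (tensFn W t) := by
    intro g t
    induction t using TensorProduct.induction_on with
    | zero => simp
    | add x y hx hy => simp only [map_add, hx, hy]
    | tmul a b =>
      rw [Representation.tprod_apply, TensorProduct.map_tmul, tensFn_tmul, tensFn_tmul]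
      funext s s'
      show (Specht.act α g (a : Specht.Words α)) s * (Specht.act α g (b : Specht.Words α)) s' = _
      rw [Specht.act_apply, Specht.act_apply]
      rfl
  let F : (Specht.spechtRep U).IntertwiningMap
      ((Specht.spechtRep T).tprod (Specht.spechtRep T)) :=
    LinearMap.intertwiningMap_of_isIntertwiningMap (Specht.spechtRep U)
      ((Specht.spechtRep T).tprod (Specht.spechtRep T)) f fun g v => tensFn_injective W (by
        rw [hf, hrep, hf, ← he, ← toFn_act]
        rfl)
  refine ⟨F, fun h0 => ?_⟩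
  have h1 : f ⟨Specht.poly U, Specht.poly_mem U⟩ = 0 :=
    LinearMap.congr_fun (congrArg (fun G => G.toLinearMap) h0) _
  have h2 := congrArg (tensFn W) h1
  rw [hf, map_zero, toFn_poly, ← poly_reindex _ _ (cellsEquiv mu)] at h2
  exact hne _ h2

/-- The tensor square is universal once every shape is `Good`. -/
theorem universalSquare_of_good
    (H : ∀ (m K : ℕ) (l : Fin K → ℕ), ∑ k, l k = N m → Good m l)
    (m : ℕ) (T : α ≃ (Specht.staircase m).cells) : Specht.UniversalSquare T := by
  refine Specht.universalSquare_of fun mu U => exists_intertwiner T U (H m _ _ ?_)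
  have h := Fintype.card_congr ((cellsEquiv mu).trans (U.symm.trans T))
  rw [Fintype.card_sigma, Fintype.card_coe] at h
  simp only [Fintype.card_fin] at h
  rw [h, N_eq]
  exact Specht.card_staircase m

end Vale.Agent.P197
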