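import Vale.Agent.P197.Basic

/-!
# P197: arithmetic of shapes in the induction

`l k` are column lengths summing to a triangular number. With many nonempty columns one
removes a cell from `m + 1` of them (`one_step`); with few nonempty columns one removes
pairs, quadruples and a single cell from distinct columns (`two_step`).
-/

namespace Vale.Agent.P197

open Finset

/-- One step down the staircase. -/
theorem one_step {K m : ℕ} (l : Fin K → ℕ) (hsum : ∑ k, l k = N (m + 1))
    (hmax : ∀ k, l k ≤ max m 1)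
    (hcnt : m + 1 ≤ (univ.filter fun k => 0 < l k).card) :
    ∃ S : Finset (Fin K), S.card = m + 1 ∧ (∀ k ∈ S, 0 < l k) ∧
      ∀ k, (if k ∈ S then l k - 1 else l k) ≤ max (m - 1) 1 := by
  set big := univ.filter fun k => max (m - 1) 1 < l k with hbig
  have hcard : big.card ≤ m + 1 := by
    by_cases hm : m ≤ 1
    · have : big = ∅ := by
        rw [hbig, filter_eq_empty_iff]
        intro k _
        have := hmax k
        omega
      simp [this]
    · have h1 : big.card * m ≤ ∑ k ∈ big, l k := by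
        rw [← smul_eq_mul]
        refine Finset.card_nsmul_le_sum _ _ _ fun k hk => ?_
        rw [hbig, mem_filter] at hk
        omega
      have h2 : ∑ k ∈ big, l k ≤ ∑ k, l k :=
        Finset.sum_le_sum_of_subset (subset_univ _)
      have h3 := two_mul_N (m + 1)
      by_contra h
      have h4 : (m + 2) * m ≤ big.card * m := Nat.mul_le_mul_right m (by omega)
      nlinarith
  have hsub : big ⊆ univ.filter fun k => 0 < l k := by
    intro k hk
    rw [hbig, mem_filter] at hk
    rw [mem_filter]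
    exact ⟨mem_univ _, by omega⟩
  obtain ⟨S, hS1, hS2, hS3⟩ := Finset.exists_subsuperset_card_eq hsub hcard hcnt
  refine ⟨S, hS3, fun k hk => (mem_filter.1 (hS2 hk)).2, fun k => ?_⟩
  have := hmax k
  split_ifs with hk
  · omega
  · have : k ∉ big := fun h => hk (hS1 h)
    rw [hbig, mem_filter] at this
    simp only [mem_univ, true_and, not_lt] at this
    exact this

/-- Number of cells removed: pairs, quadruples and a single. -/
def sz2 (B t : ℕ) : Fin B ⊕ (Fin (t + 1) ⊕ Unit) → ℕ
  | .inl _ => 2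
  | .inr (.inl _) => 4
  | .inr (.inr _) => 1

private theorem few_big (M a R ls SU : ℕ) (hM : 4 ≤ M) (ha : 1 ≤ a) (ha2 : 2 * a + 1 ≤ M)
    (hR : ls + R ≤ a + 2) (hSU : SU + 6 * a ≤ (a - 1) * (M - 1) + 3 * M) :
    2 * (SU + (ls + R)) < M * (M + 1) := by
  obtain ⟨b, rfl⟩ := Nat.exists_eq_add_of_le ha
  obtain ⟨x, rfl⟩ := Nat.exists_eq_add_of_le hM
  simp only [Nat.add_sub_cancel_left] at hSU
  rw [show 4 + x - 1 = x + 3 by omega] at hSU
  nlinarith [Nat.mul_le_mul_right x ha2]

/-- Two steps down the staircase. -/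
theorem two_step {K M : ℕ} (l : Fin K → ℕ) (hsum : ∑ k, l k = N M)
    (hmax : ∀ k, l k ≤ max (M - 1) 1)
    (hcnt : (univ.filter fun k => 0 < l k).card < M) :
    ∃ (m B t : ℕ) (ι : Fin B ⊕ (Fin (t + 1) ⊕ Unit) → Fin K),
      M = m + 2 ∧ B + 2 * t + 1 = m ∧ Function.Injective ι ∧
      (∀ c, sz2 B t c ≤ l (ι c)) ∧
      (∀ k, (∀ c, ι c ≠ k) → l k ≤ max (m - 1) 1) ∧
      ∀ c, l (ι c) - sz2 B t c ≤ max (m - 1) 1 := by
  set P := univ.filter fun k => 0 < l k with hP
  have hmemP : ∀ k, k ∈ P ↔ 0 < l k := fun k => by simp [hP]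
  have hsumP : ∑ k ∈ P, l k = N M := by
    rw [← hsum]
    refine Finset.sum_subset (subset_univ _) fun k _ hk => ?_
    rw [hmemP] at hk
    omega
  have hN := two_mul_N M
  have hub : ∑ k ∈ P, l k ≤ P.card * max (M - 1) 1 := by
    rw [← smul_eq_mul]
    exact Finset.sum_le_card_nsmul _ _ _ fun k _ => hmax k
  have hM : 4 ≤ M := by
    by_contra hc
    have : M = 0 ∨ M = 1 ∨ M = 2 ∨ M = 3 := by omega
    rcases this with rfl | rfl | rfl | rfl
    · omega
    all_goals
      norm_num at hub hN
      omega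
  have hmax' : ∀ k, l k ≤ M - 1 := fun k => by have := hmax k; omega
  rw [max_eq_left (by omega : 1 ≤ M - 1)] at hub
  -- the single cell comes from a shortest nonempty column
  have hne : P.Nonempty := by
    rw [Finset.nonempty_iff_ne_empty]
    intro h
    rw [h, Finset.sum_empty] at hsumP
    nlinarith
  obtain ⟨s, hsP, hsmin⟩ := Finset.exists_min_image P l hne
  have hs1 : 1 ≤ l s := (hmemP s).1 hsP
  set U := (P.erase s).filter fun k => 2 ≤ l k with hU
  set O := (P.erase s).filter fun k => ¬ 2 ≤ l k with hO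
  have hUO : U.card + O.card + 1 = P.card := by
    rw [hU, hO, Finset.card_filter_add_card_filter_not, Finset.card_erase_add_one hsP]
  have hOsum : ∑ k ∈ O, l k = O.card := by
    rw [Finset.card_eq_sum_ones]
    refine Finset.sum_congr rfl fun k hk => ?_
    rw [hO, mem_filter, mem_erase, hmemP] at hk
    omega
  have htot : ∑ k ∈ U, l k + (l s + O.card) = N M := by
    rw [← hsumP, ← Finset.add_sum_erase _ _ hsP, ← hOsum,
      ← Finset.sum_filter_add_sum_filter_not (P.erase s) (fun k => 2 ≤ l k)]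
    rw [← hU, ← hO]
    ring
  have hcase : l s = 1 ∨ O.card = 0 := by
    by_cases h : l s = 1
    · exact Or.inl h
    · refine Or.inr (Finset.card_eq_zero.2 (Finset.filter_eq_empty_iff.2 fun k hk => ?_))
      have := hsmin k (mem_of_mem_erase hk)
      omega
  have hUsum : ∑ k ∈ U, l k ≤ U.card * (M - 1) := by
    rw [← smul_eq_mul]
    exact Finset.sum_le_card_nsmul _ _ _ fun k _ => hmax' k
  obtain ⟨x, hx⟩ : ∃ x, M = x + 4 := ⟨M - 4, by omega⟩
  have hM1 : M - 1 = x + 3 := by omega
  have hu : M - 1 ≤ 2 * U.card := by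
    by_contra hc
    have hsM := hmax' s
    rcases hcase with h | h <;> rw [h] at htot
    · nlinarith
    · nlinarith
  have hsM : l s ≤ M - 2 := by
    by_contra hc
    have hall : ∀ k ∈ P, l k = M - 1 := fun k hk => by
      have := hsmin k hk; have := hmax' k; omega
    rw [Finset.sum_congr rfl hall, Finset.sum_const, smul_eq_mul] at hsumP
    have h2 : (x + 3) ∣ 2 := by
      have e : 2 * P.card * (x + 3) = (x + 3) * (x + 6) + 2 := by
        subst hx; rw [hM1] at hsumP; nlinarith
      have := Nat.dvd_sub (dvd_mul_left (x + 3) (2 * P.card)) (dvd_mul_right (x + 3) (x + 6))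
      rwa [e, Nat.add_sub_cancel_left] at this
    have := Nat.le_of_dvd (by norm_num) h2
    omega
  set a := M - 1 - U.card with ha
  have ha1 : 1 ≤ a := by omega
  have hbig : a ≤ (U.filter fun k => 4 ≤ l k).card := by
    by_contra hc
    set F := U.filter fun k => 4 ≤ l k with hF
    set G := U.filter fun k => ¬ 4 ≤ l k with hG
    have hFG : F.card + G.card = U.card := Finset.card_filter_add_card_filter_not _
    have hs3 : l s ≤ 3 := by
      have : G.Nonempty := Finset.card_pos.1 (by omega)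
      obtain ⟨k, hk⟩ := this
      simp only [hG, hU, mem_filter, mem_erase] at hk
      have := hsmin k hk.1.1.2
      omega
    have h1 : ∑ k ∈ F, l k ≤ F.card * (M - 1) := by
      rw [← smul_eq_mul]
      exact Finset.sum_le_card_nsmul _ _ _ fun k _ => hmax' k
    have h2 : ∑ k ∈ G, l k ≤ G.card * 3 := by
      rw [← smul_eq_mul]
      refine Finset.sum_le_card_nsmul _ _ _ fun k hk => ?_
      rw [hG, mem_filter] at hk
      omega
    have h3 : ∑ k ∈ U, l k = ∑ k ∈ F, l k + ∑ k ∈ G, l k :=
      (Finset.sum_filter_add_sum_filter_not U _ _).symm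
    obtain ⟨j, hj⟩ := Nat.exists_eq_add_of_le (show F.card ≤ a - 1 by omega)
    have hSU : ∑ k ∈ U, l k + 6 * a ≤ (a - 1) * (M - 1) + 3 * M := by
      rw [hj]
      have : j * 3 ≤ j * (M - 1) := Nat.mul_le_mul_left j (by omega)
      rw [Nat.add_mul]
      omega
    have := few_big M a O.card (l s) (∑ k ∈ U, l k) hM ha1 (by omega) (by omega) hSU
    rw [htot] at this
    omega
  obtain ⟨Q, hQF, hQa⟩ := Finset.exists_subset_card_eq hbig
  have hQU : Q ⊆ U := hQF.trans (filter_subset _ _)
  have hQ4 : ∀ k ∈ Q, 4 ≤ l k := fun k hk => (mem_filter.1 (hQF hk)).2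
  have hU2 : ∀ k ∈ U, 2 ≤ l k ∧ k ≠ s := fun k hk => by
    rw [hU, mem_filter, mem_erase] at hk
    exact ⟨hk.2, hk.1.1⟩
  have hWcard : (U \ Q).card = U.card - a := by rw [card_sdiff_of_subset hQU, hQa]
  have hQcard : Q.card = a - 1 + 1 := by omega
  let eW := (U \ Q).equivFinOfCardEq hWcard
  let eQ := Q.equivFinOfCardEq hQcard
  let ι : Fin (U.card - a) ⊕ (Fin (a - 1 + 1) ⊕ Unit) → Fin K :=
    Sum.elim (fun i => (eW.symm i).1) (Sum.elim (fun i => (eQ.symm i).1) fun _ => s)
  have hW : ∀ i, (eW.symm i).1 ∈ U ∧ (eW.symm i).1 ∉ Q := fun i =>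
    mem_sdiff.1 (eW.symm i).2
  have hQm : ∀ i, (eQ.symm i).1 ∈ Q := fun i => (eQ.symm i).2
  refine ⟨M - 2, U.card - a, a - 1, ι, by omega, by omega, ?_, ?_, ?_, ?_⟩
  · refine Function.Injective.sumElim (Subtype.val_injective.comp eW.symm.injective)
      (Function.Injective.sumElim (Subtype.val_injective.comp eQ.symm.injective)
        (fun _ _ _ => rfl) ?_) ?_
    · exact fun i _ => (hU2 _ (hQU (hQm i))).2
    · rintro i (j | j)
      · intro h
        exact (hW i).2 (h ▸ hQm j)
      · exact (hU2 _ (hW i).1).2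
  · rintro (i | i | i)
    · exact (hU2 _ (hW i).1).1
    · exact hQ4 _ (hQm i)
    · exact hs1
  · intro k hk
    refine le_max_of_le_right ?_
    by_contra hc
    have hks : k ≠ s := fun h => hk (.inr (.inr ())) h.symm
    have hkU : k ∈ U := by
      rw [hU, mem_filter, mem_erase, hmemP]
      exact ⟨⟨hks, by omega⟩, by omega⟩
    by_cases hkQ : k ∈ Q
    · exact hk (.inr (.inl (eQ ⟨k, hkQ⟩))) (by simp [ι])
    · exact hk (.inl (eW ⟨k, mem_sdiff.2 ⟨hkU, hkQ⟩⟩)) (by simp [ι])
  · rintro (i | i | i)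
    all_goals simp only [sz2, ι, Sum.elim_inl, Sum.elim_inr]
    · have := hmax' (eW.symm i).1; omega
    · have := hmax' (eQ.symm i).1; omega
    · omega

end Vale.Agent.P197
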