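import Vale.Agent.P197.Key

/-!
# P197: the sign twist

Pairing a labelling with the labelling by columns intertwines a shape with the
transposed shape up to the sign character; two such twists cancel.
-/

namespace Vale.Agent.P197

open Matrix Finset

variable {X : Type} [Fintype X] [DecidableEq X] {D : Type} [Fintype D] [DecidableEq D]

/-- Pairing with `chi`. -/
noncomputable def theta (col row : D → ℕ) (b : D ≃ X) (B : ℕ) : Fn X →ₗ[ℂ] Fn X :=
  ∑ s : X → Fin B,
    (LinearMap.proj (R := ℂ) (φ := fun _ : X → ℕ => ℂ) (fun x => (s x : ℕ))).smulRight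
      (fun A => chi col row b A (fun x => (s x : ℕ)))

theorem theta_apply (col row : D → ℕ) (b : D ≃ X) (B : ℕ) (f : Fn X) (A : X → ℕ) :
    theta col row b B f A = ∑ s : X → Fin B,
      f (fun x => (s x : ℕ)) * chi col row b A (fun x => (s x : ℕ)) := by
  simp [theta, LinearMap.sum_apply, Finset.sum_apply]

/-- The sign of a permutation as a complex number. -/
noncomputable def sgC (g : Equiv.Perm X) : ℂ := ((Equiv.Perm.sign g : ℤˣ) : ℤ)

theorem sgC_mul_self (g : Equiv.Perm X) : sgC g * sgC g = 1 := by
  rcases Int.units_eq_one_or (Equiv.Perm.sign g) with h | h <;> simp [sgC, h]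

theorem theta_permL (col row : D → ℕ) (b : D ≃ X) (B : ℕ) (g : Equiv.Perm X) (f : Fn X) :
    theta col row b B (permL g f) = sgC g • permL g (theta col row b B f) := by
  funext A
  simp only [Pi.smul_apply, smul_eq_mul, permL_apply, theta_apply, Finset.mul_sum]
  refine Fintype.sum_equiv (Equiv.arrowCongr g.symm (Equiv.refl _)) _ _ fun s => ?_
  simp only [Equiv.arrowCongr_apply, Equiv.symm_symm, Equiv.coe_refl, Function.comp_def, id_eq]
  have h := chi_comp (R := ℂ) col row b g A (fun x => (s x : ℕ))
  simp only [Function.comp_def] at h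
  rw [h]
  rcases Int.units_eq_one_or (Equiv.Perm.sign g) with hs | hs <;> simp [sgC, hs]

omit [Fintype X] [DecidableEq X] in
theorem poly_conj (col row : D → ℕ) (T : D ≃ X) (s : X → ℕ) :
    (starRingEnd ℂ) (poly col row T s) = poly col row T s := by
  rw [poly, RingHom.map_det]
  congr 1
  ext x y
  simp [apply_ite (starRingEnd ℂ)]

omit [Fintype X] [DecidableEq X] in
theorem conj_mem_spec (col row : D → ℕ) {f : Fn X} (hf : f ∈ spec col row X) :
    (fun s => (starRingEnd ℂ) (f s)) ∈ spec col row X := by
  refine Submodule.span_induction ?_ ?_ ?_ ?_ hf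
  · rintro _ ⟨T, rfl⟩
    simp only [poly_conj]
    exact poly_mem_spec col row T
  · convert zero_mem (spec col row X) using 1
    funext s; simp
  · intro x y _ _ hx hy
    convert add_mem hx hy using 1
    funext s; simp
  · intro a x _ hx
    convert Submodule.smul_mem _ ((starRingEnd ℂ) a) hx using 1
    funext s; simp

omit [Fintype X] [DecidableEq X] in
theorem spec_eq_zero_of_large (col row : D → ℕ) (B : ℕ) (hB : ∀ d, row d < B) {f : Fn X}
    (hf : f ∈ spec col row X) {s : X → ℕ} {x : X} (hx : B ≤ s x) : f s = 0 := by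
  refine Submodule.span_induction (p := fun f _ => f s = 0) ?_ ?_ ?_ ?_ hf
  · rintro _ ⟨T, rfl⟩
    refine det_eq_zero_of_row_eq_zero (T.symm x) fun y => ?_
    have := hB y
    simp only [of_apply, Equiv.apply_symm_apply]
    rw [if_neg]
    intro hc; omega
  · rfl
  · intro f g _ _ hf hg; simp [hf, hg]
  · intro a f _ hf; simp [hf]

variable {m : ℕ}

/-- A function in the staircase Specht module killed by `theta` is zero. -/
theorem theta_injective (bX : Stair m ≃ X) {w : Fn X} (hw : w ∈ specR m X)
    (h : theta sCol sRow bX m w = 0) : w = 0 := by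
  have hperp : ∀ f ∈ specR m X,
      ∑ u : X → Fin m, f (fun x => (u x : ℕ)) * w (fun x => (u x : ℕ)) = 0 := by
    intro f hf
    refine Submodule.span_induction
      (p := fun f _ => ∑ u : X → Fin m, f (fun x => (u x : ℕ)) * w (fun x => (u x : ℕ)) = 0)
      ?_ ?_ ?_ ?_ hf
    · rintro _ ⟨T, rfl⟩
      have h1 := congrFun h (fun x => sCol (T.symm x))
      rw [theta_apply, Pi.zero_apply] at h1
      simp only [poly_eq_chi sCol sRow bX T (fun x => sCol (T.symm x)) (by simp), mul_assoc,
        ← Finset.mul_sum]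
      simp only [mul_comm (chi sCol sRow bX _ _ : ℂ)]
      rw [h1, mul_zero]
    · simp
    · intro f g _ _ hf hg
      simp [add_mul, Finset.sum_add_distrib, hf, hg]
    · intro a f _ hf
      simp [mul_assoc, ← Finset.mul_sum, hf]
  have h0 := hperp _ (conj_mem_spec _ _ hw)
  have hz : ∀ u : X → Fin m, w (fun x => (u x : ℕ)) = 0 := by
    intro u
    simp only [Complex.conj_mul', ← Complex.ofReal_pow, ← Complex.ofReal_sum,
      Complex.ofReal_eq_zero] at h0
    have := (Finset.sum_eq_zero_iff_of_nonneg (fun u _ => by positivity)).1 h0 u (Finset.mem_univ u)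
    simpa using this
  funext u
  by_cases hu : ∀ x, u x < m
  · exact hz fun x => ⟨u x, hu x⟩
  · push Not at hu
    obtain ⟨x, hx⟩ := hu
    exact spec_eq_zero_of_large sCol sRow m (fun d => d.1.1.isLt) hw hx

/-- The twist in the first variable. -/
noncomputable def theta2 (bX : Stair m ≃ X) : Fn2 X →ₗ[ℂ] Fn2 X where
  toFun F := fun s t => theta sCol sRow bX m (fun u => F u t) s
  map_add' F G := by
    funext s t
    exact congrFun (map_add (theta sCol sRow bX m) (fun u => F u t) (fun u => G u t)) s
  map_smul' a F := by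
    funext s t
    exact congrFun (map_smul (theta sCol sRow bX m) a (fun u => F u t)) s

omit [Fintype X] [DecidableEq X] in
theorem slice_mem {F : Fn2 X} (hF : F ∈ Prod2 m X) (t : X → ℕ) :
    (fun u => F u t) ∈ specR m X := by
  let ev : Fn2 X →ₗ[ℂ] Fn X :=
    { toFun := fun F u => F u t, map_add' := fun _ _ => rfl, map_smul' := fun _ _ => rfl }
  suffices h : Prod2 m X ≤ (specR m X).comap ev from h hF
  refine Submodule.map₂_le.2 fun f hf g _ => ?_
  have : ev (outer f g) = g t • f := by
    funext u; simp [ev, mul_comm]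
  rw [Submodule.mem_comap, this]
  exact Submodule.smul_mem _ _ hf

theorem theta_mem (bX : Stair m ≃ X) (f : Fn X) :
    theta sCol sRow bX m f ∈ specR m X := by
  simp only [theta, LinearMap.sum_apply, LinearMap.smulRight_apply]
  refine Submodule.sum_mem _ fun s _ => Submodule.smul_mem _ _ ?_
  have : (fun A => chi (R := ℂ) sCol sRow bX A (fun x => (s x : ℕ)))
      = ((Equiv.Perm.sign (sTr m) : ℤ) : ℂ) •
        fun A => chi (R := ℂ) sCol sRow bX (fun x => (s x : ℕ)) A := by
    funext A
    rw [chi_symm bX (fun x => (s x : ℕ)) A]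
    rfl
  rw [this]
  exact Submodule.smul_mem _ _ (chi_mem_spec _ _ _ _)

theorem theta2_mem (bX : Stair m ≃ X) {F : Fn2 X} (hF : F ∈ Prod2 m X) :
    theta2 bX F ∈ Prod2 m X := by
  suffices h : Prod2 m X ≤ (Prod2 m X).comap (theta2 bX) from h hF
  refine Submodule.map₂_le.2 fun f _ g hg => ?_
  have : theta2 bX (outer f g) = outer (theta sCol sRow bX m f) g := by
    funext s t
    show theta sCol sRow bX m (fun u => outer f g u t) s = _
    rw [outer_apply, theta_apply, theta_apply, Finset.sum_mul]
    exact Finset.sum_congr rfl fun u _ => by simp; ring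
  rw [Submodule.mem_comap, this]
  exact outer_mem_Prod2 (theta_mem bX f) hg

theorem theta2_perm2 (bX : Stair m ≃ X) (g : Equiv.Perm X) (F : Fn2 X) :
    theta2 bX (perm2 g F) = sgC g • perm2 g (theta2 bX F) := by
  funext s t
  exact congrFun (theta_permL sCol sRow bX m g (fun u => F u (t ∘ g))) s

theorem theta2_injective (bX : Stair m ≃ X) {F : Fn2 X} (hF : F ∈ Prod2 m X)
    (h : theta2 bX F = 0) : F = 0 := by
  funext u t
  exact congrFun (theta_injective bX (slice_mem hF t)
    (funext fun s => congrFun (congrFun h s) t)) u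

/-- The twist: the transposed shape suffices. -/
theorem good_of_dual {K K' : ℕ} {l : Fin K → ℕ} {l' : Fin K' → ℕ}
    (e : Cells l' ≃ Cells l) (he : ∀ x, cCol x = cRow (e x) ∧ cRow x = cCol (e x))
    (h : Good m l') : Good m l := by
  intro X _ _ hX
  obtain ⟨ψ, hψ, hψP, hψne⟩ := h X hX
  by_cases hb : Nonempty (Cells l ≃ X)
  swap
  · exact ⟨0, fun _ _ => by simp, fun _ => by simp, fun T => absurd ⟨T⟩ hb⟩
  obtain ⟨b⟩ := hb
  let bX : Stair m ≃ X := Fintype.equivOfCardEq (by rw [hX, card_stair])
  let B := (∑ k, l k) + 1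
  have hB : ∀ d : Cells l, cRow d < B := fun d => by
    have := Finset.single_le_sum (fun k _ => Nat.zero_le (l k)) (Finset.mem_univ d.1)
    have := d.2.isLt
    simp only [cRow, B]
    omega
  let Θ := theta cCol cRow b B
  let φ : Fn X →ₗ[ℂ] Fn2 X := (theta2 bX).comp (ψ.comp Θ)
  have hφe : ∀ σ f, φ (permL σ f) = perm2 σ (φ f) := by
    intro σ f
    simp only [φ, Θ, LinearMap.comp_apply, theta_permL, map_smul, hψ, theta2_perm2, smul_smul,
      sgC_mul_self, one_smul]
  refine ⟨φ, hφe, fun f => theta2_mem bX (hψP _), good_of_exists φ hφe b fun h0 => ?_⟩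
  have h1 : ψ (Θ (poly cCol cRow b)) = 0 := theta2_injective bX (hψP _) h0
  have hall : ∀ f ∈ spec (D := Cells l) cCol cRow X, ψ (Θ f) = 0 := by
    intro f hf
    refine Submodule.span_induction (p := fun f _ => ψ (Θ f) = 0) ?_ (by simp) ?_ ?_ hf
    · rintro _ ⟨T, rfl⟩
      have hT : T = b.trans (b.symm.trans T) := by ext x; simp
      show ψ (Θ (poly cCol cRow T)) = 0
      rw [hT, ← permL_poly]
      simp only [Θ, theta_permL, map_smul, hψ] at h1 ⊢
      rw [h1]; simp
    · intro x y _ _ hx hy; simp [hx, hy]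
    · intro a x _ hx; simp [hx]
  apply hψne (e.trans b)
  funext u v
  -- the kernel of `ψ ∘ Θ` at `(u, v)`
  let a : (X → Fin B) → ℂ := fun s => ψ (fun A => chi cCol cRow b A (fun x => (s x : ℕ))) u v
  have ha : ∀ f : Fn X, ψ (Θ f) u v = ∑ s : X → Fin B, f (fun x => (s x : ℕ)) * a s := by
    intro f
    simp [Θ, theta, LinearMap.sum_apply, map_sum, Finset.sum_apply, a]
  let δ : (X → Fin (K + 1)) → Fn X := fun A A' => if A' = (fun x => (A x : ℕ)) then 1 else 0
  have hexp : ∀ s : X → Fin B, (fun A => chi (R := ℂ) cCol cRow b A (fun x => (s x : ℕ)))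
      = ∑ A : X → Fin (K + 1), chi (R := ℂ) cCol cRow b (fun x => (A x : ℕ))
          (fun x => (s x : ℕ)) • δ A := by
    intro s
    funext A'
    simp only [Finset.sum_apply, Pi.smul_apply, smul_eq_mul, δ, mul_ite, mul_one, mul_zero]
    by_cases hA : ∀ x, A' x < K + 1
    · rw [Finset.sum_eq_single (fun x => (⟨A' x, hA x⟩ : Fin (K + 1)))]
      · simp
      · intro A _ hne
        rw [if_neg]
        intro hc
        exact hne (funext fun x => Fin.ext (congrFun hc x).symm)
      · simp
    · push Not at hA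
      obtain ⟨x, hx⟩ := hA
      rw [Finset.sum_eq_zero fun A _ => if_neg fun hc => by
        have := congrFun hc x; have := (A x).isLt; omega]
      refine det_eq_zero_of_row_eq_zero (b.symm x) fun y => ?_
      have := y.1.isLt
      simp only [of_apply, Equiv.apply_symm_apply, cCol]
      rw [if_neg]
      intro hc; omega
  let f : Fn X := fun s' => ∑ A : X → Fin (K + 1),
    (starRingEnd ℂ) (ψ (δ A) u v) * chi cCol cRow b (fun x => (A x : ℕ)) s'
  have hf : f ∈ spec (D := Cells l) cCol cRow X := by
    have : f = ∑ A : X → Fin (K + 1), (starRingEnd ℂ) (ψ (δ A) u v) •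
        fun s' => chi cCol cRow b (fun x => (A x : ℕ)) s' := by
      funext s'; simp [f, Finset.sum_apply]
    rw [this]
    exact Submodule.sum_mem _ fun A _ => Submodule.smul_mem _ _ (chi_mem_spec _ _ _ _)
  have hfa : ∀ s : X → Fin B, f (fun x => (s x : ℕ)) = (starRingEnd ℂ) (a s) := by
    intro s
    simp only [a]
    rw [hexp s]
    simp only [map_sum, map_smul, Finset.sum_apply, Pi.smul_apply, smul_eq_mul, f, map_mul,
      map_chi]
    exact Finset.sum_congr rfl fun A _ => mul_comm _ _
  have hsq := ha f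
  rw [hall f hf] at hsq
  simp only [hfa, Complex.conj_mul', ← Complex.ofReal_pow, ← Complex.ofReal_sum, Pi.zero_apply]
    at hsq
  have hz : ∀ s, a s = 0 := by
    intro s
    have h2 := Complex.ofReal_eq_zero.1 hsq.symm
    simpa using (Finset.sum_eq_zero_iff_of_nonneg (fun u _ => by positivity)).1 h2 s
      (Finset.mem_univ s)
  let s0 : X → Fin B := fun x => ⟨cRow (b.symm x), hB _⟩
  have hs0 : (fun A => chi (R := ℂ) cCol cRow b A (fun x => (s0 x : ℕ)))
      = poly cCol cRow (e.trans b) := by
    funext A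
    rw [chi, poly, ← det_submatrix_equiv_self e]
    congr 1
    ext x y
    simp only [submatrix_apply, of_apply, s0, Equiv.symm_apply_apply, Equiv.trans_apply,
      (he x).1, (he y).1, (he y).2]
    exact if_congr and_comm rfl rfl
  have := hz s0
  simp only [a, hs0] at this
  simpa using this

end Vale.Agent.P197
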