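import Vale.Agent.P197.KeyStep
import Vale.Agent.P197.Shapes
import Vale.Agent.P197.Twist

/-!
# P197: the key sum is nonzero for every shape with short columns, and the transposed case
-/

namespace Vale.Agent.P197

open Matrix Finset

theorem sum_eq_of_ext {K : ℕ} {Cl : Type} [Fintype Cl] [DecidableEq Cl] {sz : Cl → ℕ}
    {l l' : Fin K → ℕ} (e : Ext l l' sz) : ∑ k, l k = ∑ k, l' k + ∑ c, sz c := by
  have h := Fintype.card_of_bijective e.split_bijective
  simpa [Fintype.card_sigma] using h.symm

/-- The key sum is nonzero for every shape whose columns are shorter than the staircase. -/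
theorem keyOK_all : ∀ (M : ℕ) {K : ℕ} (l : Fin K → ℕ), ∑ k, l k = N M →
    (∀ k, l k ≤ max (M - 1) 1) → KeyOK M l := by
  intro M
  induction M using Nat.strong_induction_on with
  | _ M ih =>
    intro K l hsum hmax
    by_cases hcnt : M ≤ (Finset.univ.filter fun k => 0 < l k).card
    · rcases M with _ | m
      · exact keyOK_zero hsum
      obtain ⟨S, hS, hpos, hnew⟩ := one_step l hsum (by simpa using hmax) hcnt
      let l' : Fin K → ℕ := fun k => if k ∈ S then l k - 1 else l k
      let e : Ext l l' (fun _ : {k // k ∈ S} => 1) :=
        { ι := Subtype.val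
          inj := Subtype.val_injective
          at_ι := fun c => by
            have := hpos c.1 c.2
            simp only [l', c.2, if_true]
            omega
          off := fun k hk => by
            have : k ∉ S := fun h => hk ⟨k, h⟩ rfl
            simp [l', this] }
      have hcard : Fintype.card {k // k ∈ S} = m + 1 := by simpa using hS
      have hsum' : ∑ k, l' k = N m := by
        have := sum_eq_of_ext e
        rw [hsum, N_succ] at this
        simp [hS] at this
        omega
      exact keyOK_one (fun _ => rfl) hcard e (ih m (by omega) l' hsum' hnew)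
    · obtain ⟨m, B, t, ι, rfl, rfl, hinj, hle, hoff, hon⟩ :=
        two_step l hsum hmax (not_le.1 hcnt)
      have hsz : sz2 B t = bsz B t := funext fun c => by rcases c with j | q | u <;> rfl
      rw [hsz] at hle hon
      let l' : Fin K → ℕ := fun k => l k - Function.extend ι (bsz B t) 0 k
      let e : Ext l l' (bsz B t) :=
        { ι := ι
          inj := hinj
          at_ι := fun c => by
            have : bsz B t c ≤ l (ι c) := hle c
            simp only [l', hinj.extend_apply]
            omega
          off := fun k hk => by
            simp only [l', Function.extend_apply' _ _ _ (fun ⟨c, hc⟩ => hk c hc), Pi.zero_apply,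
              Nat.sub_zero] }
      have hsum' : ∑ k, l' k = N (B + 2 * t + 1) := by
        have := sum_eq_of_ext e
        rw [hsum, N_succ, N_succ] at this
        simp [bsz, Fintype.sum_sum_type] at this
        omega
      have hmax' : ∀ k, l' k ≤ max (B + 2 * t + 1 - 1) 1 := by
        intro k
        by_cases h : ∃ c, ι c = k
        · obtain ⟨c, rfl⟩ := h
          simp only [l', hinj.extend_apply]
          exact hon c
        · simp only [l', Function.extend_apply' _ _ _ h, Pi.zero_apply, Nat.sub_zero]
          exact hoff k fun c hc => h ⟨c, hc⟩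
      exact keyOK_two e (ih _ (by omega) l' hsum' hmax')

/-- Renaming the columns does not matter. -/
theorem good_perm {m K : ℕ} {l : Fin K → ℕ} (π : Equiv.Perm (Fin K)) (h : Good m (l ∘ π)) :
    Good m l := by
  intro X _ _ hX
  obtain ⟨φ, he, hP, hne⟩ := h X hX
  refine ⟨φ, he, hP, fun T => ?_⟩
  let e : Cells (l ∘ π) ≃ Cells l := Equiv.sigmaCongrLeft (β := fun k => Fin (l k)) π
  have hT : poly cCol cRow (e.trans T) = poly cCol cRow T := by
    funext s
    simp only [poly]
    refine Eq.trans ?_ (det_submatrix_equiv_self e _)
    congr 1
    ext x y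
    simp only [of_apply, submatrix_apply, Equiv.trans_apply]
    refine if_congr (and_congr ?_ Iff.rfl) rfl rfl
    simp [cCol, e, Equiv.sigmaCongrLeft, Fin.val_inj]
  rw [← hT]
  exact hne _

theorem lt_count_iff {K : ℕ} {l : Fin K → ℕ} (hl : Antitone l) (i : ℕ) (k : Fin K) :
    k.val < (Finset.univ.filter fun k' => i < l k').card ↔ i < l k := by
  constructor
  · intro h
    by_contra hc
    have hsub : (Finset.univ.filter fun k' => i < l k') ⊆ Finset.Iio k := by
      intro k' hk'
      simp only [Finset.mem_filter, Finset.mem_univ, true_and] at hk'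
      rw [Finset.mem_Iio]
      by_contra hge
      have := hl (not_lt.1 hge)
      omega
    have := Finset.card_le_card hsub
    simp at this
    omega
  · intro h
    have hsub : Finset.Iic k ⊆ Finset.univ.filter fun k' => i < l k' := by
      intro k' hk'
      rw [Finset.mem_Iic] at hk'
      simp only [Finset.mem_filter, Finset.mem_univ, true_and]
      exact lt_of_lt_of_le h (hl hk')
    have := Finset.card_le_card hsub
    simp at this
    omega

/-- The case of fewer columns than the side of the staircase. -/
theorem good_few {m K : ℕ} (l : Fin K → ℕ) (hsum : ∑ k, l k = N (m + 1))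
    (hcnt : (Finset.univ.filter fun k => 0 < l k).card ≤ m) : Good (m + 1) l := by
  let π : Equiv.Perm (Fin K) := Fin.revPerm.trans (Tuple.sort l)
  refine good_perm π ?_
  set s : Fin K → ℕ := l ∘ π with hs
  have hanti : Antitone s := fun a b hab => Tuple.monotone_sort l (Fin.rev_le_rev.2 hab)
  have hsum' : ∑ k, s k = N (m + 1) := by
    rw [← hsum]; exact Equiv.sum_comp π l
  have hcnt' : (Finset.univ.filter fun k => 0 < s k).card ≤ m := by
    refine le_trans (le_of_eq ?_) hcnt
    exact Finset.card_equiv π fun k => by simp [hs]
  let L := ∑ k, s k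
  let d : Fin L → ℕ := fun i => (Finset.univ.filter fun k => i.val < s k).card
  have hdK : ∀ i, d i ≤ K := fun i => by
    have := Finset.card_le_univ (Finset.univ.filter fun k => i.val < s k)
    simpa [d] using this
  let e : Cells d ≃ Cells s :=
    { toFun := fun x => ⟨⟨x.2.val, lt_of_lt_of_le x.2.isLt (hdK x.1)⟩,
        ⟨x.1.val, (lt_count_iff hanti _ _).1 x.2.isLt⟩⟩
      invFun := fun y => ⟨⟨y.2.val, lt_of_lt_of_le y.2.isLt
          (Finset.single_le_sum (fun k _ => Nat.zero_le (s k)) (Finset.mem_univ y.1))⟩,
        ⟨y.1.val, (lt_count_iff hanti _ _).2 y.2.isLt⟩⟩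
      left_inv := fun x => rfl
      right_inv := fun y => rfl }
  refine good_of_dual e (fun x => ⟨rfl, rfl⟩) (good_of_key (keyOK_all (m + 1) d ?_ fun i => ?_))
  · rw [← hsum']
    simpa [Fintype.card_sigma] using Fintype.card_congr e
  · have : d i ≤ m := by
      refine le_trans (Finset.card_le_card ?_) hcnt'
      intro k hk
      simp only [Finset.mem_filter, Finset.mem_univ, true_and] at hk ⊢
      omega
    omega

end Vale.Agent.P197
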