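import Mathlib

/-!
Injectivity for the induction step: Gottlieb's injectivity of the down map between the levels of
the Boolean lattice, and an extremal argument on sums over transversals.
-/

namespace Vale.Agent.P197

open Finset

theorem down_injective_real {α : Type*} [DecidableEq α] (V : Finset α) (p : ℕ) (hp : 0 < p)
    (hV : V.card < 2 * p) (G : Finset α → ℝ)
    (h : ∀ W ⊆ V, W.card = p - 1 → ∑ y ∈ V \ W, G (insert y W) = 0) :
    ∀ A ⊆ V, A.card = p → G A = 0 := by
  set u : Finset α → ℝ := fun U => ∑ y ∈ U, G (U.erase y) with hu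
  -- the commutator of the up and down maps
  have key : ∀ A ∈ V.powersetCard p,
      -∑ x ∈ V \ A, u (insert x A) = (2 * (p : ℝ) - V.card) * G A := by
    intro A hA
    rw [mem_powersetCard] at hA
    obtain ⟨hAV, hcard⟩ := hA
    have h1 : ∀ y ∈ A, ∑ x ∈ V \ A, G (insert x (A.erase y)) = -G A := by
      intro y hy
      have hw := h (A.erase y) ((erase_subset _ _).trans hAV)
        (by rw [card_erase_of_mem hy, hcard])
      have e : V \ A.erase y = insert y (V \ A) := by
        ext z
        simp only [mem_sdiff, mem_erase, mem_insert]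
        by_cases hz : z = y
        · subst hz; simp [hAV hy]
        · simp [hz]
      rw [e, sum_insert (by simp [hy]), insert_erase hy] at hw
      linarith
    have h2 : ∀ x ∈ V \ A,
        u (insert x A) = G A + ∑ y ∈ A, G (insert x (A.erase y)) := by
      intro x hx
      have hxA : x ∉ A := (mem_sdiff.1 hx).2
      simp only [hu]
      rw [sum_insert hxA, erase_insert hxA]
      congr 1
      refine sum_congr rfl fun y hy => ?_
      rw [erase_insert_of_ne]
      rintro rfl
      exact hxA hy
    rw [sum_congr rfl h2, sum_add_distrib, sum_comm (s := V \ A), sum_congr rfl h1, sum_const,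
      sum_const, card_sdiff_of_subset hAV, hcard, nsmul_eq_mul, nsmul_eq_mul,
      Nat.cast_sub (hcard ▸ card_le_card hAV)]
    ring
  -- double counting
  have swap : ∑ A ∈ V.powersetCard p, ∑ x ∈ V \ A, G A * u (insert x A)
      = ∑ U ∈ V.powersetCard (p + 1), u U ^ 2 := by
    have e : ∀ U, u U ^ 2 = ∑ y ∈ U, G (U.erase y) * u U := fun U => by
      rw [← sum_mul, sq]
    simp only [e]
    rw [sum_sigma', sum_sigma']
    refine sum_bij' (fun q _ => ⟨insert q.2 q.1, q.2⟩) (fun q _ => ⟨q.1.erase q.2, q.2⟩) ?_ ?_ ?_ ?_ ?_
    · rintro ⟨A, x⟩ hq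
      simp only [mem_sigma, mem_powersetCard, mem_sdiff] at hq ⊢
      exact ⟨⟨insert_subset hq.2.1 hq.1.1, by rw [card_insert_of_notMem hq.2.2, hq.1.2]⟩,
        mem_insert_self _ _⟩
    · rintro ⟨U, y⟩ hq
      simp only [mem_sigma, mem_powersetCard, mem_sdiff] at hq ⊢
      exact ⟨⟨(erase_subset _ _).trans hq.1.1, by rw [card_erase_of_mem hq.2, hq.1.2]; rfl⟩,
        hq.1.1 hq.2, notMem_erase _ _⟩
    · rintro ⟨A, x⟩ hq
      simp only [mem_sigma, mem_sdiff] at hq
      simp [erase_insert hq.2.2]
    · rintro ⟨U, y⟩ hq
      simp only [mem_sigma] at hq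
      simp [insert_erase hq.2]
    · rintro ⟨A, x⟩ hq
      simp only [mem_sigma, mem_sdiff] at hq
      simp [erase_insert hq.2.2]
  intro A hAV hcard
  have hsum : (2 * (p : ℝ) - V.card) * ∑ B ∈ V.powersetCard p, G B ^ 2
      = -∑ U ∈ V.powersetCard (p + 1), u U ^ 2 := by
    rw [← swap, mul_sum, ← sum_neg_distrib]
    refine sum_congr rfl fun B hB => ?_
    rw [← mul_sum, ← mul_neg, key B hB]
    ring
  have hc : (0 : ℝ) < 2 * (p : ℝ) - V.card := by
    have : (V.card : ℝ) < 2 * (p : ℝ) := by exact_mod_cast hV
    linarith
  have h0 : ∑ B ∈ V.powersetCard p, G B ^ 2 ≤ 0 := by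
    by_contra hne
    push Not at hne
    have := mul_pos hc hne
    have : 0 ≤ ∑ U ∈ V.powersetCard (p + 1), u U ^ 2 := sum_nonneg fun _ _ => sq_nonneg _
    linarith
  have := (single_le_sum (f := fun B => G B ^ 2) (fun _ _ => sq_nonneg _)
    (mem_powersetCard.2 ⟨hAV, hcard⟩)).trans h0
  exact pow_eq_zero_iff two_ne_zero |>.1 (le_antisymm this (sq_nonneg _))

/-- Gottlieb: on more than the middle level the down map is injective. -/
theorem down_injective {α : Type*} [DecidableEq α] (V : Finset α) (p : ℕ) (hp : 0 < p)
    (hV : V.card < 2 * p) (G : Finset α → ℂ)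
    (h : ∀ W ⊆ V, W.card = p - 1 → ∑ y ∈ V \ W, G (insert y W) = 0) :
    ∀ A ⊆ V, A.card = p → G A = 0 := by
  intro A hAV hcard
  apply Complex.ext
  · refine down_injective_real V p hp hV (fun B => (G B).re) (fun W hW hc => ?_) A hAV hcard
    rw [← Complex.re_sum, h W hW hc]; rfl
  · refine down_injective_real V p hp hV (fun B => (G B).im) (fun W hW hc => ?_) A hAV hcard
    rw [← Complex.im_sum, h W hW hc]; rfl

section Inj

variable {X : Type} [Fintype X] [DecidableEq X] {m : ℕ}

/-- The cells with first label `j` and second label `m - 1 - j`. -/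
def antiSet (m : ℕ) (s t : X → ℕ) (j : ℕ) : Finset X :=
  univ.filter fun x => s x = j ∧ t x = m - 1 - j

/-- Transversals: free in `antiSet` below `k`, equal to `y` from `k` on. -/
def trans (s t : X → ℕ) (y : Fin m → X) (k : ℕ) : Finset (Fin m → X) :=
  Fintype.piFinset fun j => if (j : ℕ) < k then antiSet m s t j else {y j}

omit [DecidableEq X] in
theorem mem_antiSet {s t : X → ℕ} {j : ℕ} {x : X} :
    x ∈ antiSet m s t j ↔ s x = j ∧ t x = m - 1 - j := by simp [antiSet]

theorem mem_trans {s t : X → ℕ} {y : Fin m → X} {k : ℕ} {z : Fin m → X} :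
    z ∈ trans s t y k ↔ ∀ j : Fin m,
      ((j : ℕ) < k → s (z j) = j ∧ t (z j) = m - 1 - (j : ℕ)) ∧ (k ≤ (j : ℕ) → z j = y j) := by
  simp only [trans, Fintype.mem_piFinset]
  refine forall_congr' fun j => ?_
  split_ifs with hj
  · simp [mem_antiSet, hj, not_le.2 hj]
  · simp [hj, not_lt.1 hj]

/-- The rearrangement inequality against the antidiagonal, with its equality case. -/
theorem rearr {m : ℕ} (Y : Finset X) (s t : X → ℕ) (hY : Y.card = m) (hs : Y.image s = range m)
    (ht : Y.image t = range m) :
    ∑ j ∈ range m, j * (m - 1 - j) ≤ ∑ x ∈ Y, s x * t x ∧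
      (∑ x ∈ Y, s x * t x ≤ ∑ j ∈ range m, j * (m - 1 - j) → ∀ x ∈ Y, t x = m - 1 - s x) := by
  have hinj : ∀ u : X → ℕ, Y.image u = range m → Set.InjOn u Y := fun u hu =>
    card_image_iff.1 (by rw [hu, card_range, hY])
  have hsum : ∀ u : X → ℕ, Y.image u = range m → ∀ f : ℕ → ℤ,
      ∑ x ∈ Y, f (u x) = ∑ j ∈ range m, f j := fun u hu f => by
    rw [← hu, sum_image (hinj u hu)]
  have hlt : ∀ x ∈ Y, s x < m := fun x hx => mem_range.1 (hs ▸ mem_image_of_mem s hx)
  set c : ℤ := ((m - 1 : ℕ) : ℤ) with hc
  have hsq : ∑ x ∈ Y, ((s x : ℤ) + t x - c) ^ 2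
      = 2 * ((∑ x ∈ Y, (s x : ℤ) * t x) - ∑ j ∈ range m, (j : ℤ) * (c - j)) := by
    have e : ∀ x, ((s x : ℤ) + t x - c) ^ 2 = ((s x : ℤ) ^ 2 - c * (s x)) + ((t x : ℤ) ^ 2 - c * (t x))
        + 2 * ((s x : ℤ) * t x) + (c ^ 2 - c * (s x) - c * (t x)) := fun x => by ring
    simp only [e, sum_add_distrib, sum_sub_distrib]
    rw [hsum s hs fun j => (j : ℤ) ^ 2, hsum t ht fun j => (j : ℤ) ^ 2,
      hsum s hs fun j => c * (j : ℤ), hsum t ht fun j => c * (j : ℤ), sum_const, hY, ← mul_sum]
    have hj : 2 * ∑ j ∈ range m, (j : ℤ) = (m : ℤ) * c := by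
      have := sum_range_id_mul_two m
      rw [hc, ← Nat.cast_sum]
      norm_cast
      linarith
    have e2 : ∑ j ∈ range m, (j : ℤ) * (c - j)
        = c * ∑ j ∈ range m, (j : ℤ) - ∑ j ∈ range m, (j : ℤ) ^ 2 := by
      rw [mul_sum, ← sum_sub_distrib]
      exact sum_congr rfl fun j _ => by ring
    rw [e2, ← mul_sum]
    simp only [nsmul_eq_mul]
    linear_combination (-c) * hj
  have hcast : ((∑ j ∈ range m, j * (m - 1 - j) : ℕ) : ℤ) = ∑ j ∈ range m, (j : ℤ) * (c - j) := by
    push_cast
    refine sum_congr rfl fun j hj => ?_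
    rw [Nat.cast_sub (by have := mem_range.1 hj; omega)]
  refine ⟨?_, fun hle x hx => ?_⟩
  · have : 0 ≤ ∑ x ∈ Y, ((s x : ℤ) + t x - c) ^ 2 := sum_nonneg fun _ _ => sq_nonneg _
    zify [hcast]
    linarith
  · have h0 : ∑ x ∈ Y, ((s x : ℤ) + t x - c) ^ 2 ≤ 0 := by
      zify [hcast] at hle
      linarith
    have hx0 := (single_le_sum (f := fun x => ((s x : ℤ) + t x - c) ^ 2)
      (fun _ _ => sq_nonneg _) hx).trans h0
    have : (s x : ℤ) + t x - c = 0 :=
      (pow_eq_zero_iff two_ne_zero).1 (le_antisymm hx0 (sq_nonneg _))
    have := hlt x hx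
    omega

/-- The injectivity statement of the induction step. -/
theorem inj {X : Type} [Fintype X] [DecidableEq X] (m : ℕ)
    (Z w : Finset X → (X → ℕ) → (X → ℕ) → ℂ) (c0 : ℂ) (hc0 : c0 ≠ 0)
    (hw_supp : ∀ Y s t, Y.card = m → w Y s t ≠ 0 → Y.image s = range m ∧ Y.image t = range m)
    (hw_anti : ∀ Y s t, Y.card = m → Y.image s = range m → (∀ y ∈ Y, t y = m - 1 - s y) →
      w Y s t = c0)
    (hZ_loc : ∀ Y s t s' t', Y.card = m → (∀ x ∉ Y, s x = s' x) → (∀ x ∉ Y, t x = t' x) →
      Z Y s t = Z Y s' t')
    (hZ_supp : ∀ Y s t, Y.card = m → Z Y s t ≠ 0 → ∀ a < m,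
      (univ.filter fun x => x ∉ Y ∧ s x = a).card ≤ m - 1 - a)
    (hzero : ∀ s t, ∑ Y ∈ powersetCard m univ, w Y s t * Z Y s t = 0) :
    ∀ Y, Y.card = m → ∀ s t, Z Y s t = 0 := by
  classical
  by_contra hne
  push Not at hne
  -- the least potential of a nonvanishing configuration
  have hex : ∃ v, ∃ Y : Finset X, ∃ s t : X → ℕ, Y.card = m ∧ Z Y s t ≠ 0 ∧
      ∑ x ∈ Yᶜ, s x * t x = v := by
    obtain ⟨Y, hY, s, t, hZ⟩ := hne
    exact ⟨_, Y, s, t, hY, hZ, rfl⟩
  set P0 := Nat.find hex with hP0
  have hmin : ∀ Y : Finset X, ∀ s t, Y.card = m → ∑ x ∈ Yᶜ, s x * t x < P0 → Z Y s t = 0 := by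
    intro Y s t hY hlt
    by_contra hZ
    exact Nat.find_min hex hlt ⟨Y, s, t, hY, hZ, rfl⟩
  set R := ∑ j ∈ range m, j * (m - 1 - j) with hR
  have claim : ∀ d k, k + d = m → ∀ (s t : X → ℕ) (y : Fin m → X),
      (∀ j, s (y j) = j ∧ t (y j) = m - 1 - (j : ℕ)) → ∑ x, s x * t x = P0 + R →
      ∑ z ∈ trans s t y k, Z (univ.image z) s t = 0 := by
    intro d
    induction d with
    | zero =>
      intro k hk s t y hy htot
      obtain rfl : k = m := by omega
      have hz0 := hzero s t
      rw [← sum_filter_add_sum_filter_not (powersetCard k univ)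
        (fun Y => Y.image s = range k ∧ ∀ x ∈ Y, t x = k - 1 - s x)] at hz0
      rw [sum_eq_zero (s := filter (fun Y => ¬_) _) ?_, add_zero] at hz0
      swap
      · intro Y hY
        rw [mem_filter, mem_powersetCard] at hY
        by_cases hw : w Y s t = 0
        · rw [hw, zero_mul]
        obtain ⟨hs, ht⟩ := hw_supp Y s t hY.1.2 hw
        obtain ⟨hge, heq⟩ := rearr Y s t hY.1.2 hs ht
        have hsplit := sum_compl_add_sum Y fun x => s x * t x
        rw [hmin Y s t hY.1.2 ?_, mul_zero]
        by_contra hge'
        exact hY.2 ⟨hs, heq (by omega)⟩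
      have hsumc : c0 * ∑ Y ∈ filter (fun Y => Y.image s = range k ∧ ∀ x ∈ Y, t x = k - 1 - s x)
          (powersetCard k univ), Z Y s t = 0 := by
        rw [mul_sum, ← hz0]
        refine sum_congr rfl fun Y hY => ?_
        rw [mem_filter, mem_powersetCard] at hY
        rw [hw_anti Y s t hY.1.2 hY.2.1 hY.2.2]
      rcases mul_eq_zero.1 hsumc with h0 | h0
      · exact absurd h0 hc0
      rw [← h0]
      have hzinj : ∀ z ∈ trans s t y k, Function.Injective z := fun z hz a b hab => by
        have ha := ((mem_trans.1 hz a).1 a.2).1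
        have hb := ((mem_trans.1 hz b).1 b.2).1
        rw [hab] at ha
        exact Fin.ext (ha.symm.trans hb)
      refine sum_bij (fun z _ => univ.image z) ?_ ?_ ?_ ?_
      · intro z hz
        rw [mem_filter, mem_powersetCard, card_image_of_injective _ (hzinj z hz), card_univ,
          Fintype.card_fin]
        refine ⟨⟨subset_univ _, rfl⟩, ?_, ?_⟩
        · ext a
          simp only [mem_image, mem_univ, true_and, mem_range]
          constructor
          · rintro ⟨x, ⟨j, rfl⟩, rfl⟩; rw [((mem_trans.1 hz j).1 j.2).1]; exact j.2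
          · intro ha; exact ⟨_, ⟨⟨a, ha⟩, rfl⟩, ((mem_trans.1 hz ⟨a, ha⟩).1 ha).1⟩
        · intro x hx
          obtain ⟨j, -, rfl⟩ := mem_image.1 hx
          obtain ⟨e1, e2⟩ := (mem_trans.1 hz j).1 j.2
          rw [e1, e2]
      · intro z hz z' hz' he
        funext j
        obtain ⟨j', -, hj'⟩ := mem_image.1 (he ▸ mem_image_of_mem z (mem_univ j))
        have e1 := ((mem_trans.1 hz j).1 j.2).1
        have e2 := ((mem_trans.1 hz' j').1 j'.2).1
        rw [hj', e1] at e2
        rw [← hj', Fin.ext e2]
      · intro Y hY
        rw [mem_filter, mem_powersetCard] at hY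
        obtain ⟨⟨-, hcard⟩, hs, hanti⟩ := hY
        have hsur : ∀ j : Fin k, ∃ x ∈ Y, s x = j := fun j => by
          simpa using (hs ▸ mem_range.2 j.2 : (j : ℕ) ∈ Y.image s)
        choose z hzY hzs using hsur
        have hzt : z ∈ trans s t y k := mem_trans.2 fun j =>
          ⟨fun _ => ⟨hzs j, by rw [hanti _ (hzY j), hzs j]⟩, fun h => absurd j.2 (not_lt.2 h)⟩
        refine ⟨z, hzt, eq_of_subset_of_card_le (image_subset_iff.2 fun j _ => hzY j) ?_⟩
        rw [card_image_of_injective _ (hzinj z hzt), card_univ, Fintype.card_fin, hcard]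
      · intro z hz; rfl
    | succ d ih =>
      intro k hk s t y hy htot
      have hkm : k < m := by omega
      set kF : Fin m := ⟨k, hkm⟩ with hkF
      set F := (antiSet m s t k).erase (y kF) with hF
      have hzmem : ∀ z ∈ trans s t y k, ∀ j, s (z j) = j := fun z hz j => by
        rcases lt_or_ge (j : ℕ) k with h | h
        · exact ((mem_trans.1 hz j).1 h).1
        · rw [(mem_trans.1 hz j).2 h]; exact (hy j).1
      have hzinj : ∀ z ∈ trans s t y k, Function.Injective z := fun z hz a b hab => by
        have ha := hzmem z hz a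
        rw [hab, hzmem z hz b] at ha
        exact Fin.ext ha.symm
      have hzcard : ∀ z ∈ trans s t y k, (univ.image z).card = m := fun z hz => by
        rw [card_image_of_injective _ (hzinj z hz), card_univ, Fintype.card_fin]
      by_cases hq : m - 1 - k < F.card
      · refine sum_eq_zero fun z hz => ?_
        by_contra hZ
        refine absurd (hZ_supp _ s t (hzcard z hz) hZ k hkm) (not_le.2 (lt_of_lt_of_le hq
          (card_le_card fun x hx => ?_)))
        rw [hF, mem_erase, mem_antiSet] at hx
        rw [mem_filter]
        refine ⟨mem_univ _, fun hxz => ?_, hx.2.1⟩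
        obtain ⟨j, -, rfl⟩ := mem_image.1 hxz
        have hj : j = kF := Fin.ext ((hzmem z hz j).symm.trans hx.2.1)
        subst hj
        exact hx.1 ((mem_trans.1 hz kF).2 le_rfl)
      set H := (univ.filter fun j : Fin m => k ≤ (j : ℕ)).image y with hH
      set V := F ∪ H with hV
      have hyinj : Function.Injective y := fun a b hab => Fin.ext (by
        rw [← (hy a).1, hab, (hy b).1])
      have hHcard : H.card = m - k := by
        rw [hH, card_image_of_injective _ hyinj,
          show (univ.filter fun j : Fin m => k ≤ (j : ℕ)) = Ici kF from by ext; simp [kF, Fin.le_def],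
          Fin.card_Ici]
      have hdisj : Disjoint F H := by
        rw [disjoint_left]
        intro x hx hxH
        rw [hF, mem_erase, mem_antiSet] at hx
        obtain ⟨j, -, rfl⟩ := mem_image.1 hxH
        exact hx.1 (congrArg y (Fin.ext ((hy j).1.symm.trans hx.2.1)))
      have hVcard : V.card = F.card + (m - k) := by rw [hV, card_union_of_disjoint hdisj, hHcard]
      have hVs : ∀ x ∈ V, k ≤ s x := fun x hx => by
        rcases mem_union.1 hx with h | h
        · rw [(mem_antiSet.1 (mem_of_mem_erase h)).1]
        · obtain ⟨j, hj, rfl⟩ := mem_image.1 h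
          rw [(hy j).1]; exact (mem_filter.1 hj).2
      set ss : X → ℕ := fun x => if x ∈ V then k else s x with hss
      set tt : X → ℕ := fun x => if x ∈ V then m - 1 - k else t x with htt
      set lo : (Fin m → X) → Finset X :=
        fun z => (univ.filter fun j : Fin m => (j : ℕ) < k).image z with hlo
      set G : Finset X → ℂ := fun A => ∑ z ∈ trans s t y k, Z (lo z ∪ A) ss tt with hG
      have hlosplit : ∀ z : Fin m → X, univ.image z
          = lo z ∪ (univ.filter fun j : Fin m => k ≤ (j : ℕ)).image z := fun z => by
        rw [hlo, ← image_union]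
        congr 1
        ext j; simp [lt_or_ge]
      have hG0 : G H = 0 := by
        refine down_injective V (m - k) (by omega) (by omega) G (fun W hWV hW => ?_) H
          subset_union_right hHcard
        -- relabel `W` by the levels above `k`
        have hcW : W.card = (Ioi kF).card := by rw [hW, Fin.card_Ioi]; simp [kF]; omega
        set e : W ≃ Ioi kF := Finset.equivOfCardEq hcW with he
        have hek : ∀ x : W, k < ((e x : Fin m) : ℕ) := fun x => Fin.lt_def.1 ((mem_Ioi (α := Fin m)).1 (e x).2)
        have hne' : (V \ W).Nonempty := card_pos.1 (by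
          rw [card_sdiff_of_subset hWV, hW, hVcard]; omega)
        obtain ⟨a0, ha0⟩ := hne'
        set s' : X → ℕ := fun x => if h : x ∈ W then ((e ⟨x, h⟩ : Fin m) : ℕ) else ss x with hs'
        set t' : X → ℕ := fun x => if h : x ∈ W then m - 1 - ((e ⟨x, h⟩ : Fin m) : ℕ) else tt x
          with ht'
        set y' : Fin m → X := fun j => if h : kF < j then (e.symm ⟨j, mem_Ioi.2 h⟩ : X)
          else if j = kF then a0 else y j with hy'
        have hWeq : (univ.filter fun j : Fin m => k < (j : ℕ)).image y' = W := by
          ext x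
          simp only [mem_image, mem_filter, mem_univ, true_and]
          constructor
          · rintro ⟨j, hj, rfl⟩
            simp only [hy', dif_pos (show kF < j from hj)]
            exact (e.symm _).2
          · intro hx
            refine ⟨(e ⟨x, hx⟩ : Fin m), hek _, ?_⟩
            simp only [hy', dif_pos (mem_Ioi.1 (e ⟨x, hx⟩).2)]
            simp
        have hlow : ∀ j : Fin m, (j : ℕ) < k → y j ∉ V := fun j hj hjV => by
          have := hVs _ hjV
          rw [(hy j).1] at this
          omega
        have hconf : ∀ j, s' (y' j) = j ∧ t' (y' j) = m - 1 - (j : ℕ) := by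
          intro j
          rcases lt_trichotomy kF j with h | h | h
          · simp only [hy', dif_pos h, hs', ht', dif_pos (e.symm ⟨j, mem_Ioi.2 h⟩).2,
              Subtype.coe_eta, Equiv.apply_symm_apply]
            exact ⟨trivial, trivial⟩
          · subst h
            obtain ⟨haV, haW⟩ := mem_sdiff.1 ha0
            simp [hy', hs', ht', haW, hss, htt, haV, kF]
          · have hnV := hlow j h
            have hnW : y j ∉ W := fun hW' => hnV (hWV hW')
            simp [hy', h.not_gt, h.ne, hs', ht', hnW, hss, htt, hnV, (hy j).1, (hy j).2]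
        have htot' : ∑ x, s' x * t' x = P0 + R := by
          rw [← htot, ← sum_compl_add_sum V, ← sum_compl_add_sum V fun x => s x * t x]
          congr 1
          · refine sum_congr rfl fun x hx => ?_
            rw [mem_compl] at hx
            have hnW : x ∉ W := fun hW' => hx (hWV hW')
            simp [hs', ht', hnW, hss, htt, hx]
          · have h1 : ∑ x ∈ V, s x * t x = F.card * (k * (m - 1 - k))
                + ∑ j ∈ Ici kF, (j : ℕ) * (m - 1 - (j : ℕ)) := by
              rw [hV, sum_union hdisj]
              congr 1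
              · rw [← smul_eq_mul, ← sum_const]
                refine sum_congr rfl fun x hx => ?_
                obtain ⟨e1, e2⟩ := mem_antiSet.1 (mem_of_mem_erase hx)
                rw [e1, e2]
              · rw [hH, sum_image hyinj.injOn,
                  show (univ.filter fun j : Fin m => k ≤ (j : ℕ)) = Ici kF from by
                    ext; simp [kF, Fin.le_def]]
                exact sum_congr rfl fun j _ => by rw [(hy j).1, (hy j).2]
            have h2 : ∑ x ∈ V, s' x * t' x = (F.card + 1) * (k * (m - 1 - k))
                + ∑ j ∈ Ioi kF, (j : ℕ) * (m - 1 - (j : ℕ)) := by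
              rw [← sum_sdiff hWV]
              congr 1
              · have : (V \ W).card = F.card + 1 := by
                  rw [card_sdiff_of_subset hWV, hW, hVcard]; omega
                rw [← this, ← smul_eq_mul, ← sum_const]
                refine sum_congr rfl fun x hx => ?_
                obtain ⟨hxV, hxW⟩ := mem_sdiff.1 hx
                simp [hs', ht', hxW, hss, htt, hxV]
              · rw [← sum_attach W, ← sum_attach (Ioi kF)]
                refine Fintype.sum_equiv e _ _ fun x => ?_
                simp [hs', ht', x.2]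
            rw [h1, h2, Ici_eq_cons_Ioi, sum_cons]
            simp [kF]
            ring
        have hP := ih (k + 1) (by omega) s' t' y' hconf htot'
        rw [← hP]
        simp only [hG]
        rw [← sum_product']
        refine sum_bij' (fun q _ => fun j => if (j : ℕ) < k then q.2 j
          else if j = kF then q.1 else y' j)
          (fun z _ => (z kF, fun j => if (j : ℕ) < k then z j else y j)) ?_ ?_ ?_ ?_ ?_
        · rintro ⟨a, z⟩ hq
          simp only [mem_product, mem_sdiff] at hq
          refine mem_trans.2 fun j => ⟨fun hj => ?_, fun hj => ?_⟩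
          · by_cases h : (j : ℕ) < k
            · obtain ⟨e1, e2⟩ := (mem_trans.1 hq.2 j).1 h
              have hnV : z j ∉ V := fun hv => by have := hVs _ hv; omega
              have hnW : z j ∉ W := fun hW' => hnV (hWV hW')
              simp [h, hs', ht', hnW, hss, htt, hnV, e1, e2]
            · have hjk : j = kF := Fin.ext (by simp [kF]; omega)
              subst hjk
              simp [kF, hs', ht', hq.1.2, hss, htt, hq.1.1]
          · have h1 : ¬ (j : ℕ) < k := by omega
            have h2 : j ≠ kF := fun h => by subst h; simp [kF] at hj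
            simp [h1, h2]
        · intro z hz
          obtain ⟨e1, e2⟩ := (mem_trans.1 hz kF).1 (by simp [kF])
          simp only [mem_product, mem_sdiff]
          have hnW : z kF ∉ W := fun hW' => by
            simp only [hs', dif_pos hW'] at e1
            have := hek ⟨_, hW'⟩
            have : (kF : ℕ) = k := rfl
            omega
          refine ⟨⟨?_, hnW⟩, mem_trans.2 fun j => ⟨fun hj => ?_, fun hj => ?_⟩⟩
          · by_contra hnV
            simp [hs', ht', hnW, hss, htt, hnV, kF] at e1 e2
            by_cases hyk : z kF = y kF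
            · exact hnV (mem_union_right _ (mem_image.2 ⟨kF, by simp [kF], hyk.symm⟩))
            · exact hnV (mem_union_left _ (mem_erase.2 ⟨hyk, mem_antiSet.2 ⟨e1, e2⟩⟩))
          · obtain ⟨f1, f2⟩ := (mem_trans.1 hz j).1 (by omega)
            have hnW' : z j ∉ W := fun hW' => by
              simp only [hs', dif_pos hW'] at f1
              have := hek ⟨_, hW'⟩
              omega
            have hnV : z j ∉ V := fun hv => by
              simp [hs', hnW', hss, hv] at f1
              omega
            simp [hs', ht', hnW', hss, htt, hnV] at f1 f2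
            simp [hj, f1, f2]
          · simp [not_lt.2 hj]
        · rintro ⟨a, z⟩ hq
          simp only [mem_product] at hq
          refine Prod.ext (by simp [kF]) (funext fun j => ?_)
          by_cases h : (j : ℕ) < k
          · simp [h]
          · simp [h, (mem_trans.1 hq.2 j).2 (not_lt.1 h)]
        · intro z hz
          funext j
          by_cases h : (j : ℕ) < k
          · simp [h]
          · by_cases h2 : j = kF
            · subst h2; simp [h]
            · simp [h, h2]
              have : k + 1 ≤ (j : ℕ) := by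
                have : (j : ℕ) ≠ k := fun e' => h2 (Fin.ext (by simp [kF, e']))
                omega
              exact ((mem_trans.1 hz j).2 this).symm
        · rintro ⟨a, z⟩ hq
          simp only [mem_product, mem_sdiff] at hq
          set z' : Fin m → X := fun j => if (j : ℕ) < k then z j
            else if j = kF then a else y' j with hz'
          have himg : univ.image z' = lo z ∪ insert a W := by
            rw [hlosplit z']
            congr 1
            · refine image_congr fun j hj => ?_
              simp only [coe_filter, Set.mem_ofPred_eq] at hj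
              simp [hz', hj.2]
            · rw [show (univ.filter fun j : Fin m => k ≤ (j : ℕ))
                  = insert kF (univ.filter fun j : Fin m => k < (j : ℕ)) from by
                    ext j; simp [kF, Fin.ext_iff]; omega,
                image_insert]
              congr 1
              · simp [hz', kF]
              · refine (image_congr fun j hj => ?_).trans hWeq
                simp only [coe_filter, Set.mem_ofPred_eq] at hj
                have h1 : ¬ (j : ℕ) < k := by omega
                have h2 : j ≠ kF := fun h => by subst h; simp [kF] at hj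
                simp [hz', h1, h2]
          show Z (lo z ∪ insert a W) ss tt = Z (univ.image z') s' t'
          rw [himg]
          refine hZ_loc _ _ _ _ _ ?_ (fun x hx => ?_) (fun x hx => ?_)
          · rw [card_union_of_disjoint, card_insert_of_notMem hq.1.2, hlo,
              card_image_of_injective _ (hzinj z hq.2), hW,
              show (univ.filter fun j : Fin m => (j : ℕ) < k) = Iio kF from by
                ext; simp [kF, Fin.lt_def], Fin.card_Iio]
            · simp [kF]; omega
            · rw [disjoint_left]
              intro x hx hxW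
              obtain ⟨j, hj, rfl⟩ := mem_image.1 hx
              have hxV : z j ∈ V := by
                rcases mem_insert.1 hxW with h | h
                · rw [h]; exact hq.1.1
                · exact hWV h
              have := hVs _ hxV
              rw [hzmem z hq.2 j] at this
              have := (mem_filter.1 hj).2
              omega
          all_goals
            have : x ∉ W := fun h => hx (mem_union_right _ (mem_insert_of_mem h))
            simp [hs', ht', this]
      rw [← hG0, hG]
      refine sum_congr rfl fun z hz => ?_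
      have himg : univ.image z = lo z ∪ H := by
        rw [hlosplit z, hH]
        congr 1
        refine image_congr fun j hj => ?_
        simp only [coe_filter, Set.mem_ofPred_eq] at hj
        exact (mem_trans.1 hz j).2 hj.2
      show Z (univ.image z) s t = Z (lo z ∪ H) ss tt
      rw [← himg]
      refine hZ_loc _ _ _ _ _ (hzcard z hz) (fun x hx => ?_) (fun x hx => ?_)
      all_goals
        simp only [hss, htt]
        split_ifs with hxV
        · rcases mem_union.1 hxV with h | h
          · first
              | exact (mem_antiSet.1 (mem_of_mem_erase h)).1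
              | exact (mem_antiSet.1 (mem_of_mem_erase h)).2
          · exact absurd (himg ▸ mem_union_right _ h) hx
        · rfl
  obtain ⟨Y, s, t, hY, hZ, hval⟩ := Nat.find_spec hex
  set e := Y.equivFinOfCardEq hY with he
  set s1 : X → ℕ := fun x => if h : x ∈ Y then (e ⟨x, h⟩ : ℕ) else s x with hs1
  set t1 : X → ℕ := fun x => if h : x ∈ Y then m - 1 - (e ⟨x, h⟩ : ℕ) else t x with ht1
  set y : Fin m → X := fun j => (e.symm j : X) with hyd
  have hconf : ∀ j, s1 (y j) = j ∧ t1 (y j) = m - 1 - (j : ℕ) := fun j => by
    simp [hs1, ht1, hyd]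
  have htot : ∑ x, s1 x * t1 x = P0 + R := by
    rw [← sum_compl_add_sum Y]
    congr 1
    · rw [hP0, ← hval]
      exact sum_congr rfl fun x hx => by simp [hs1, ht1, mem_compl.1 hx]
    · rw [← sum_attach Y, hR, ← Fin.sum_univ_eq_sum_range (fun j => j * (m - 1 - j)) m]
      refine Fintype.sum_equiv e _ _ fun x => ?_
      simp [hs1, ht1, x.2]
  have hfin := claim m 0 (by omega) s1 t1 y hconf htot
  have htr : trans s1 t1 y 0 = {y} := by
    ext z
    rw [mem_trans, mem_singleton]
    constructor
    · intro hz; funext j; exact (hz j).2 (Nat.zero_le _)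
    · rintro rfl j; exact ⟨fun h => absurd h (Nat.not_lt_zero _), fun _ => rfl⟩
  rw [htr, sum_singleton] at hfin
  have himg : univ.image y = Y := by
    ext x
    simp only [hyd, mem_image, mem_univ, true_and]
    exact ⟨fun ⟨j, hj⟩ => hj ▸ (e.symm j).2, fun hx => ⟨e ⟨x, hx⟩, by simp⟩⟩
  rw [himg] at hfin
  refine hZ (Eq.trans ?_ hfin)
  exact hZ_loc Y _ _ _ _ hY (fun x hx => by simp [hs1, hx]) (fun x hx => by simp [ht1, hx])

end Inj

end Vale.Agent.P197
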