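import Vale.Agent.P197.Basic

/-!
# P197: the key determinant sum

`Fsum m l T z` is the value at one point of an explicit equivariant map into
`Prod2 m`, evaluated on one polytabloid of shape `l`. It is a polynomial in the
values of `z` with integer coefficients, so it is enough that it is nonzero for
some `z` in some domain of characteristic two.
-/

namespace Vale.Agent.P197

open Matrix Finset

section Weights

variable {R S : Type*} [CommRing R] [CommRing S] {m : ℕ}

/-- Row weight: in characteristic two, the indicator that `α` numbers every row. -/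
def wR (α : Stair m → ℕ) : R := chi sCol sRow (Equiv.refl (Stair m)) α sRow

/-- Column weight: in characteristic two, the indicator that `β` numbers every column. -/
def wC (β : Stair m → ℕ) : R := chi sCol sRow (Equiv.refl (Stair m)) sCol β

theorem map_chi {D X : Type} [Fintype D] [DecidableEq D] (φ : R →+* S) (col row : D → ℕ)
    (b : D ≃ X) (A s : X → ℕ) : φ (chi col row b A s) = chi col row b A s := by
  rw [chi, chi, RingHom.map_det]
  congr 1
  ext y' y
  simp [apply_ite φ]

variable {K : ℕ} {l : Fin K → ℕ}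

/-- The matrix of a summand. -/
def kMat (T : Cells l ≃ Stair m) (z : ℕ → ℕ → ℕ → R) (α β : Stair m → ℕ) :
    Matrix (Cells l) (Cells l) R :=
  of fun x y => if x.1 = y.1 then z (cRow y) (α (T x)) (β (T x)) else 0

/-- The key sum. -/
def Fsum (T : Cells l ≃ Stair m) (z : ℕ → ℕ → ℕ → R) : R :=
  ∑ α : Stair m → Fin m, ∑ β : Stair m → Fin m,
    wR (fun x => (α x : ℕ)) * wC (fun x => (β x : ℕ))
      * (kMat T z (fun x => (α x : ℕ)) (fun x => (β x : ℕ))).det

theorem map_Fsum (φ : R →+* S) (T : Cells l ≃ Stair m) (z : ℕ → ℕ → ℕ → R) :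
    φ (Fsum T z) = Fsum T (fun i j k => φ (z i j k)) := by
  simp only [Fsum, map_sum, map_mul, wR, wC, map_chi, RingHom.map_det]
  congr! 4 with α _ β _
  ext x y
  simp [kMat, apply_ite φ]

end Weights

/-- Nonvanishing of the key sum in some domain of characteristic two. -/
def KeyOK (m : ℕ) {K : ℕ} (l : Fin K → ℕ) : Prop :=
  ∃ (R : Type) (_ : CommRing R) (_ : IsDomain R) (_ : CharP R 2)
    (T : Cells l ≃ Stair m) (z : ℕ → ℕ → ℕ → R), Fsum T z ≠ 0

theorem exists_complex_point {m K : ℕ} {l : Fin K → ℕ} (h : KeyOK m l) :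
    ∃ (T : Cells l ≃ Stair m) (z : ℕ → ℕ → ℕ → ℂ), Fsum T z ≠ 0 := by
  obtain ⟨R, _, _, _, T, z, hz⟩ := h
  refine ⟨T, ?_⟩
  let U : ℕ → ℕ → ℕ → MvPolynomial (ℕ × ℕ × ℕ) ℤ := fun i j k => MvPolynomial.X (i, j, k)
  have hU : Fsum T U ≠ 0 := by
    intro h0
    apply hz
    have := congrArg (MvPolynomial.eval₂Hom (Int.castRingHom R) (fun p => z p.1 p.2.1 p.2.2)) h0
    simpa [map_Fsum, U] using this
  have hC : MvPolynomial.map (Int.castRingHom ℂ) (Fsum T U) ≠ 0 := by
    intro h0
    exact hU (MvPolynomial.map_injective _ Int.cast_injective (by simpa using h0))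
  obtain ⟨pt, hpt⟩ : ∃ pt, MvPolynomial.eval pt (MvPolynomial.map (Int.castRingHom ℂ) (Fsum T U)) ≠ 0 := by
    by_contra hc
    push Not at hc
    exact hC (MvPolynomial.funext fun p => by simp [hc p])
  refine ⟨fun i j k => pt (i, j, k), ?_⟩
  intro h0
  apply hpt
  rw [map_Fsum, map_Fsum]
  simpa [U] using h0

/-- The transpose of a staircase cell. -/
def sTr (m : ℕ) : Equiv.Perm (Stair m) where
  toFun x := ⟨(x.1.2, x.1.1), by have := x.2; show x.1.2.val + x.1.1.val < m; omega⟩
  invFun x := ⟨(x.1.2, x.1.1), by have := x.2; show x.1.2.val + x.1.1.val < m; omega⟩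
  left_inv x := rfl
  right_inv x := rfl

/-- `chi` of the staircase is symmetric up to a fixed sign. -/
theorem chi_symm {R : Type*} [CommRing R] {m : ℕ} {X : Type} [Fintype X] [DecidableEq X]
    (b : Stair m ≃ X) (A s : X → ℕ) :
    chi sCol sRow b s A
      = (Equiv.Perm.sign (sTr m) : R) * chi sCol sRow b A s := by
  rw [chi, chi, ← det_permute']
  congr 1
  ext y' y
  simp only [sTr, sCol, sRow, of_apply, submatrix_apply, id_eq, Equiv.coe_fn_mk]
  exact ite_congr (propext and_comm) (fun _ => rfl) (fun _ => rfl)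

theorem card_stair : ∀ m : ℕ, Fintype.card (Stair m) = N m
  | 0 => Fintype.card_eq_zero
  | m + 1 => by
    let e : Stair (m + 1) → Stair m ⊕ Fin (m + 1) := fun x =>
      if h : x.1.2.val = 0 then Sum.inr x.1.1
      else Sum.inl ⟨(⟨x.1.1.val, by have := x.2; omega⟩, ⟨x.1.2.val - 1, by have := x.2; omega⟩),
        by have := x.2; show x.1.1.val + (x.1.2.val - 1) < m; omega⟩
    have he : Function.Bijective e := by
      constructor
      · intro x y hxy
        apply Subtype.ext
        simp only [e] at hxy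
        split_ifs at hxy <;> simp [Prod.ext_iff, Fin.ext_iff] at hxy ⊢ <;> omega
      · rintro (⟨⟨i, j⟩, h⟩ | i)
        · refine ⟨⟨(⟨i.val, by omega⟩, ⟨j.val + 1, by simp at h; omega⟩), ?_⟩, ?_⟩
          · show i.val + (j.val + 1) < m + 1
            simp at h; omega
          · simp [e]
        · exact ⟨⟨(i, 0), by simp; omega⟩, by simp [e]⟩
    rw [Fintype.card_of_bijective he, Fintype.card_sum, Fintype.card_fin, card_stair m, N_succ]

section Psi

variable {X : Type} [Fintype X] [DecidableEq X] {m : ℕ}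

/-- The equivariant map attached to `z`. -/
noncomputable def psi (B : ℕ) (z : ℕ → ℕ → ℕ → ℂ) (bX : Stair m ≃ X) : Fn X →ₗ[ℂ] Fn2 X :=
  ∑ L : X → Fin B, ∑ a : X → Fin m, ∑ b : X → Fin m,
    (∏ x, z (L x) (a x) (b x)) •
      (LinearMap.proj (R := ℂ) (φ := fun _ : X → ℕ => ℂ) (fun x => (L x : ℕ))).smulRight
        (outer (fun s => chi sCol sRow bX (fun x => (a x : ℕ)) s)
          (fun t => chi sCol sRow bX (fun x => (b x : ℕ)) t))

theorem psi_apply (B : ℕ) (z : ℕ → ℕ → ℕ → ℂ) (bX : Stair m ≃ X) (f : Fn X) (s t : X → ℕ) :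
    psi B z bX f s t = ∑ L : X → Fin B, ∑ a : X → Fin m, ∑ b : X → Fin m,
      (∏ x, z (L x) (a x) (b x)) * (f (fun x => (L x : ℕ)) *
        (chi sCol sRow bX (fun x => (a x : ℕ)) s * chi sCol sRow bX (fun x => (b x : ℕ)) t)) := by
  simp [psi, LinearMap.sum_apply, Finset.sum_apply]

theorem psi_mem (B : ℕ) (z : ℕ → ℕ → ℕ → ℂ) (bX : Stair m ≃ X) (f : Fn X) :
    psi B z bX f ∈ Prod2 m X := by
  simp only [psi, LinearMap.sum_apply, LinearMap.smul_apply, LinearMap.smulRight_apply]
  refine Submodule.sum_mem _ fun L _ => Submodule.sum_mem _ fun a _ => Submodule.sum_mem _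
    fun b _ => Submodule.smul_mem _ _ (Submodule.smul_mem _ _ ?_)
  exact outer_mem_Prod2 (chi_mem_spec _ _ _ _) (chi_mem_spec _ _ _ _)

theorem psi_equivariant (B : ℕ) (z : ℕ → ℕ → ℕ → ℂ) (bX : Stair m ≃ X) (g : Equiv.Perm X)
    (f : Fn X) : psi B z bX (permL g f) = perm2 g (psi B z bX f) := by
  funext s t
  rw [perm2_apply, psi_apply, psi_apply]
  refine Fintype.sum_equiv (Equiv.arrowCongr g.symm (Equiv.refl _)) _ _ fun L => ?_
  refine Fintype.sum_equiv (Equiv.arrowCongr g.symm (Equiv.refl _)) _ _ fun a => ?_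
  refine Fintype.sum_equiv (Equiv.arrowCongr g.symm (Equiv.refl _)) _ _ fun b => ?_
  simp only [Equiv.arrowCongr_apply, Equiv.symm_symm, Equiv.coe_refl, Function.comp_apply,
    id_eq, permL_apply]
  rw [Equiv.prod_comp g (fun x => z (L x) (a x) (b x))]
  have h1 := chi_comp (R := ℂ) sCol sRow bX g (fun x => (a x : ℕ)) s
  have h2 := chi_comp (R := ℂ) sCol sRow bX g (fun x => (b x : ℕ)) t
  simp only [Function.comp_def] at h1 h2 ⊢
  rw [h1, h2]
  rcases Int.units_eq_one_or (Equiv.Perm.sign g) with hs | hs <;> simp [hs]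

omit [DecidableEq X] in
/-- Summing over the labels in a row-multilinear determinant. -/
theorem sum_det_label {R : Type*} [CommRing R] {D : Type} [Fintype D] [DecidableEq D]
    (B : ℕ) (col : D → ℕ) (row : D → ℕ) (hB : ∀ d, row d < B) [DecidableEq X] (T : D ≃ X)
    (w : X → ℕ → R) :
    ∑ L : X → Fin B, (∏ x, w x (L x)) *
        det (of fun x y : D => if col x = col y ∧ (L (T x) : ℕ) = row y then (1 : R) else 0)
      = det (of fun x y : D => if col x = col y then w (T x) (row y) else 0) := by
  simp only [det_apply', Finset.mul_sum]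
  rw [Finset.sum_comm]
  refine Finset.sum_congr rfl fun π _ => ?_
  simp only [mul_left_comm _ ((Equiv.Perm.sign π : ℤ) : R) _, ← Finset.mul_sum]
  congr 1
  rw [← Equiv.prod_comp π.symm
    (fun y => of (fun x y : D => if col x = col y then w (T x) (row y) else 0) (π y) y)]
  rw [← Equiv.sum_comp (Equiv.arrowCongr T (Equiv.refl (Fin B)))]
  have : ∀ x : D, (of fun x y : D => if col x = col y then w (T x) (row y) else 0)
      (π (π.symm x)) (π.symm x)
      = ∑ j : Fin B, w (T x) j * if col x = col (π.symm x) ∧ (j : ℕ) = row (π.symm x) then 1 else 0 := by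
    intro x
    rw [Finset.sum_eq_single ⟨row (π.symm x), hB _⟩]
    · simp
    · intro j _ hj
      simp [Fin.ext_iff] at hj
      simp [hj]
    · simp
  rw [Finset.prod_congr rfl fun x _ => this x, Fintype.prod_sum]
  refine Finset.sum_congr rfl fun L _ => ?_
  rw [← Equiv.prod_comp T, ← Equiv.prod_comp π.symm
    (fun y => of (fun x y : D => if col x = col y ∧
      ((Equiv.arrowCongr T (Equiv.refl (Fin B))) L (T x) : ℕ) = row y then (1 : R) else 0) (π y) y),
    ← Finset.prod_mul_distrib]
  simp

end Psi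

/-- The key nonvanishing gives the map `psi`, nonzero on polytabloids. -/
theorem good_of_key {m K : ℕ} {l : Fin K → ℕ} (h : KeyOK m l) : Good m l := by
  obtain ⟨T, z, hz⟩ := exists_complex_point h
  intro X _ _ hX
  let bX : Stair m ≃ X := Fintype.equivOfCardEq (by rw [hX, card_stair])
  let B := (∑ k, l k) + 1
  refine ⟨psi B z bX, psi_equivariant B z bX, psi_mem B z bX,
    good_of_exists _ (psi_equivariant B z bX) (T.trans bX) fun h0 => hz ?_⟩
  have h1 := congrFun (congrFun h0 (fun x => sRow (bX.symm x))) (fun x => sCol (bX.symm x))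
  rw [psi_apply] at h1
  have hB : ∀ d : Cells l, cRow d < B := fun d => by
    have := Finset.single_le_sum (fun k _ => Nat.zero_le (l k)) (Finset.mem_univ d.1)
    have := d.2.isLt
    simp only [cRow, B]
    omega
  let c : ℂ := (Equiv.Perm.sign (sTr m) : ℤ)
  have key : Fsum T z * c = 0 := by
    simp only [Pi.zero_apply] at h1
    rw [← h1, Fsum, Finset.sum_mul]
    simp only [Finset.sum_mul]
    symm
    -- move the label sum innermost and reindex along `bX`
    rw [Finset.sum_comm]
    refine Fintype.sum_equiv (Equiv.arrowCongr bX.symm (Equiv.refl _)) _ _ fun a => ?_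
    rw [Finset.sum_comm]
    refine Fintype.sum_equiv (Equiv.arrowCongr bX.symm (Equiv.refl _)) _ _ fun b => ?_
    have hk : (kMat T z (fun x => (a (bX x) : ℕ)) (fun x => (b (bX x) : ℕ))).det
        = ∑ L : X → Fin B, (∏ x, z (L x) (a x) (b x)) * poly cCol cRow (T.trans bX)
            (fun x => (L x : ℕ)) := by
      have := sum_det_label B cCol cRow hB (T.trans bX) (fun x j => z j (a x) (b x))
      simp only [poly]
      refine Eq.trans ?_ this.symm
      congr 1
      ext x y
      simp [kMat, cCol, Fin.val_inj]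
    have h2 : chi (R := ℂ) sCol sRow bX (fun x => (a x : ℕ)) (fun x => sRow (bX.symm x))
        = wR (fun x => (a (bX x) : ℕ)) := by
      rw [wR, chi, chi]; congr 1; ext
      simp only [of_apply, Equiv.symm_apply_apply, Equiv.refl_apply]
      congr
    have h3 : chi (R := ℂ) sCol sRow bX (fun x => (b x : ℕ)) (fun x => sCol (bX.symm x))
        = c * wC (fun x => (b (bX x) : ℕ)) := by
      rw [chi_symm bX (fun x => sCol (bX.symm x)) (fun x => (b x : ℕ))]
      congr 1
      rw [wC, chi, chi]; congr 1; ext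
      simp only [of_apply, Equiv.symm_apply_apply, Equiv.refl_apply]
      congr
    simp only [Equiv.arrowCongr_apply, Equiv.symm_symm, Equiv.coe_refl, Function.comp_def, id_eq,
      hk, h2, h3, Finset.mul_sum, Finset.sum_mul]
    refine Finset.sum_congr rfl fun L _ => ?_
    ring
  rcases mul_eq_zero.mp key with h | h
  · exact h
  · exfalso
    rcases Int.units_eq_one_or (Equiv.Perm.sign (sTr m)) with hs | hs <;> simp [c, hs] at h

end Vale.Agent.P197
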