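import Mathlib

/-!
The words of the parity count: pairs are forced, and the number of good words is odd.
Positions are cut into pairs, quads and one single; a transfer step adds four letters.
-/

namespace Vale.Agent.P197.Words

open Finset

/-- The high bit of a letter. -/
def hi (x : Fin 4) : ℕ := x.val / 2

/-- The low bit of a letter. -/
def lo (x : Fin 4) : ℕ := x.val % 2

/-- Offsets of the quads after the pairs: `{0,1,2,4}`, then `{4k+3,4k+5,4k+6,4k+8}`. -/
def qoff (q r : ℕ) : ℕ := if r = 0 then 4 * q - 1 else if r = 3 then 4 * q + 4 else 4 * q + r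

/-- The quad offsets as a function on `Fin (t+1) × Fin 4`. -/
def qpos (t : ℕ) (q : Fin (t + 1)) (r : Fin 4) : ℕ := qoff q r

theorem qpos_zero (t : ℕ) : (qpos t 0 0, qpos t 0 1, qpos t 0 2, qpos t 0 3) = (0, 1, 2, 4) := by
  simp [qpos, qoff]

theorem qpos_succ (t : ℕ) (k : Fin t) :
    (qpos t k.succ 0, qpos t k.succ 1, qpos t k.succ 2, qpos t k.succ 3)
      = (4 * (k : ℕ) + 3, 4 * (k : ℕ) + 5, 4 * (k : ℕ) + 6, 4 * (k : ℕ) + 8) := by
  simp [qpos, qoff]; omega

theorem qpos_strictMono (t : ℕ) (q : Fin (t + 1)) : StrictMono (qpos t q) := by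
  intro r r' h
  simp only [qpos, qoff]
  have h' : (r : ℕ) < r' := h
  have := r'.isLt
  split_ifs <;> omega

theorem qpos_lt (t : ℕ) (q : Fin (t + 1)) (r : Fin 4) : qpos t q r < 4 * t + 5 := by
  simp only [qpos, qoff]
  have := q.isLt
  have := r.isLt
  split_ifs <;> omega

/-- Position of the `j`-th pair. -/
def pairPos (b t : ℕ) (p : Fin b × Fin 2) : Fin (2 * b + 4 * t + 5) :=
  ⟨2 * p.1 + p.2, by have := p.1.isLt; have := p.2.isLt; omega⟩

/-- Position of a letter of a quad. -/
def quadPos (b t : ℕ) (p : Fin (t + 1) × Fin 4) : Fin (2 * b + 4 * t + 5) :=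
  ⟨2 * b + qpos t p.1 p.2, by have := qpos_lt t p.1 p.2; omega⟩

/-- Position of the single. -/
def singlePos (b t : ℕ) : Fin (2 * b + 4 * t + 5) := ⟨2 * b + 4 * t + 3, by omega⟩

/-- The positions of pairs, quads and the single together. -/
def cpos (b t : ℕ) : ((Fin b × Fin 2) ⊕ (Fin (t + 1) × Fin 4)) ⊕ Unit →
    Fin (2 * b + 4 * t + 5) :=
  Sum.elim (Sum.elim (pairPos b t) (quadPos b t)) fun _ => singlePos b t

theorem cpos_injective (b t : ℕ) : Function.Injective (cpos b t) := by
  rintro ((⟨j, e⟩ | ⟨q, r⟩) | u) ((⟨j', e'⟩ | ⟨q', r'⟩) | u') h <;>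
    simp only [cpos, Sum.elim_inl, Sum.elim_inr, pairPos, quadPos, singlePos, qpos, qoff,
      Fin.ext_iff] at h <;>
    simp only [Sum.inl.injEq, Sum.inr.injEq, reduceCtorEq, Prod.mk.injEq, Fin.ext_iff]
  · have := e.isLt; have := e'.isLt; omega
  · have := j.isLt; have := e.isLt; split_ifs at h <;> omega
  · have := j.isLt; have := e.isLt; omega
  · have := j'.isLt; have := e'.isLt; split_ifs at h <;> omega
  · have := r.isLt; have := r'.isLt; split_ifs at h <;> omega
  · have := q.isLt; have := r.isLt; split_ifs at h <;> omega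
  · have := j'.isLt; have := e'.isLt; omega
  · have := q'.isLt; have := r'.isLt; split_ifs at h <;> omega

theorem cpos_bijective (b t : ℕ) : Function.Bijective (cpos b t) := by
  rw [Fintype.bijective_iff_injective_and_card]
  refine ⟨cpos_injective b t, ?_⟩
  simp only [Fintype.card_sum, Fintype.card_prod, Fintype.card_fin, Fintype.card_unit]
  omega

/-- Adjacent letters differ alternately in the high and in the low bit, with fixed ends. -/
def Valid {L : ℕ} (τ : Fin L → Fin 4) : Prop :=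
  (∀ i, ∀ h : 2 * i + 1 < L, hi (τ ⟨2 * i, by omega⟩) ≠ hi (τ ⟨2 * i + 1, h⟩)) ∧
  (∀ h : 0 < L, hi (τ ⟨L - 1, by omega⟩) = 1) ∧
  (∀ h : 0 < L, lo (τ ⟨0, h⟩) = 1) ∧
  ∀ i, ∀ h : 2 * i + 2 < L, lo (τ ⟨2 * i + 1, by omega⟩) ≠ lo (τ ⟨2 * i + 2, h⟩)

/-- Pairs take two distinct values in `{0,3}`, quads four distinct values, the single `0` or `3`. -/
def GoodW (b t : ℕ) (τ : Fin (2 * b + 4 * t + 5) → Fin 4) : Prop :=
  (∀ j : Fin b, τ (pairPos b t (j, 0)) ≠ τ (pairPos b t (j, 1)) ∧
      ∀ e, τ (pairPos b t (j, e)) = 0 ∨ τ (pairPos b t (j, e)) = 3) ∧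
  (∀ q, Function.Injective fun r => τ (quadPos b t (q, r))) ∧
  (τ (singlePos b t) = 0 ∨ τ (singlePos b t) = 3)

/-- The condition on four new letters after the state `(p, q)`. -/
def StepOK (p q : Fin 4) (v : Fin 4 → Fin 4) : Prop :=
  hi q ≠ hi (v 0) ∧ lo (v 0) ≠ lo (v 1) ∧ hi (v 1) ≠ hi (v 2) ∧ lo (v 2) ≠ lo (v 3) ∧
    p ≠ v 0 ∧ p ≠ v 1 ∧ p ≠ v 3 ∧ v 0 ≠ v 1 ∧ v 0 ≠ v 3 ∧ v 1 ≠ v 3

instance (p q : Fin 4) (v : Fin 4 → Fin 4) : Decidable (StepOK p q v) := by
  unfold StepOK; infer_instance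

/-- The condition on the first five letters. -/
def BaseOK (f : Fin 5 → Fin 4) : Prop :=
  lo (f 0) = 1 ∧ hi (f 0) ≠ hi (f 1) ∧ lo (f 1) ≠ lo (f 2) ∧ hi (f 2) ≠ hi (f 3) ∧
    lo (f 3) ≠ lo (f 4) ∧ f 0 ≠ f 1 ∧ f 0 ≠ f 2 ∧ f 0 ≠ f 4 ∧ f 1 ≠ f 2 ∧ f 1 ≠ f 4 ∧ f 2 ≠ f 4

instance (f : Fin 5 → Fin 4) : Decidable (BaseOK f) := by
  unfold BaseOK; infer_instance

/-- The conditions on a prefix of `4 k + 5` letters. -/
def PreOK : (k : ℕ) → (ℕ → Fin 4) → Prop
  | 0, f => BaseOK fun i => f i
  | k + 1, f => PreOK k f ∧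
      StepOK (f (4 * k + 3)) (f (4 * k + 4)) fun i => f (4 * k + 5 + i)

theorem preOK_congr : ∀ k {f g : ℕ → Fin 4}, (∀ i < 4 * k + 5, f i = g i) →
    (PreOK k f ↔ PreOK k g)
  | 0, f, g, h => by
    simp only [PreOK]
    rw [show (fun i : Fin 5 => f i) = fun i : Fin 5 => g i from funext fun i => h i i.isLt]
  | k + 1, f, g, h => by
    simp only [PreOK]
    rw [preOK_congr k fun i hi' => h i (by omega), h _ (by omega), h _ (by omega),
      show (fun i : Fin 4 => f (4 * k + 5 + i)) = fun i : Fin 4 => g (4 * k + 5 + i) from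
        funext fun i => h _ (by have := i.isLt; omega)]

/-- Extension of a finite word by zeros. -/
def ext {L : ℕ} (u : Fin L → Fin 4) (i : ℕ) : Fin 4 := if h : i < L then u ⟨i, h⟩ else 0

theorem ext_apply {L : ℕ} (u : Fin L → Fin 4) {i : ℕ} (h : i < L) : ext u i = u ⟨i, h⟩ := dif_pos h

open scoped Classical in
/-- The good prefixes in a given state. -/
noncomputable def stateSet (k : ℕ) (s : Fin 4 × Fin 4) : Finset (Fin (4 * k + 5) → Fin 4) :=
  univ.filter fun u => PreOK k (ext u) ∧ (ext u (4 * k + 3), ext u (4 * k + 4)) = s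

/-- The number of steps between two states. -/
def stepCount (s s' : Fin 4 × Fin 4) : ℕ :=
  (univ.filter fun v : Fin 4 → Fin 4 => StepOK s.1 s.2 v ∧ (v 2, v 3) = s').card

theorem stateSet_succ (k : ℕ) (s' : Fin 4 × Fin 4) :
    (stateSet (k + 1) s').card
      = ∑ s : Fin 4 × Fin 4, (stateSet k s).card * stepCount s s' := by
  classical
  simp only [stepCount, ← card_product]
  rw [← card_sigma]
  refine card_bij' (fun u _ => ⟨(ext u (4 * k + 3), ext u (4 * k + 4)),
      ((fun i => ext u i), fun i => ext u (4 * k + 5 + i))⟩)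
    (fun q _ => fun i => if h : (i : ℕ) < 4 * k + 5 then q.2.1 ⟨i, h⟩
      else q.2.2 ⟨i - (4 * k + 5), by have := i.isLt; omega⟩) ?_ ?_ ?_ ?_
  · intro u hu
    simp only [stateSet, mem_filter, mem_univ, true_and] at hu
    obtain ⟨⟨hpre, hstep⟩, hs⟩ := hu
    simp only [mem_sigma, mem_univ, true_and, mem_product, stateSet, mem_filter]
    refine ⟨⟨(preOK_congr k fun i hi' => ?_).1 hpre, ?_⟩, hstep, ?_⟩
    · rw [ext_apply (fun i : Fin (4 * k + 5) => ext u i) hi']
    · rw [ext_apply (fun i : Fin (4 * k + 5) => ext u i) (by omega),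
        ext_apply (fun i : Fin (4 * k + 5) => ext u i) (by omega)]
    · rw [← hs]
      congr 2
  · rintro ⟨s, u, v⟩ hq
    simp only [mem_sigma, mem_univ, true_and, mem_product, stateSet, mem_filter] at hq
    obtain ⟨⟨hpre, hs⟩, hstep, hv⟩ := hq
    simp only [stateSet, mem_filter, mem_univ, true_and, PreOK]
    set w : Fin (4 * (k + 1) + 5) → Fin 4 := fun i =>
      if h : (i : ℕ) < 4 * k + 5 then u ⟨i, h⟩
      else v ⟨i - (4 * k + 5), by have := i.isLt; omega⟩ with hw
    have hlow : ∀ i < 4 * k + 5, ext w i = ext u i := fun i hi' => by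
      rw [ext_apply w (by omega), ext_apply u hi']
      simp [hw, hi']
    have hhigh : ∀ i : Fin 4, ext w (4 * k + 5 + i) = v i := fun i => by
      rw [ext_apply w (by have := i.isLt; omega)]
      simp [hw]
    show w ∈ stateSet (k + 1) s'
    rw [stateSet, mem_filter]
    refine ⟨mem_univ _, ⟨(preOK_congr k hlow).2 hpre, ?_⟩, ?_⟩
    · rw [hlow _ (by omega), hlow _ (by omega)]
      have h1 := congrArg Prod.fst hs
      have h2 := congrArg Prod.snd hs
      simp only at h1 h2
      simp only [hhigh, h1, h2]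
      exact hstep
    · rw [← hv]
      exact Prod.ext (hhigh 2) (hhigh 3)
  · intro u _
    funext i
    simp only
    split_ifs with h
    · rw [ext_apply u i.isLt]
    · rw [show 4 * k + 5 + ((i : ℕ) - (4 * k + 5)) = i by omega, ext_apply u i.isLt]
  · rintro ⟨s, u, v⟩ hq
    simp only [mem_sigma, mem_univ, true_and, mem_product, stateSet, mem_filter] at hq
    obtain ⟨⟨hpre, hs⟩, hstep, hv⟩ := hq
    set w : Fin (4 * (k + 1) + 5) → Fin 4 := fun i =>
      if h : (i : ℕ) < 4 * k + 5 then u ⟨i, h⟩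
      else v ⟨i - (4 * k + 5), by have := i.isLt; omega⟩ with hw
    have hlow : ∀ i (h : i < 4 * k + 5), ext w i = u ⟨i, h⟩ := fun i hi' => by
      rw [ext_apply w (by omega)]
      simp [hw, hi']
    have hhigh : ∀ i : Fin 4, ext w (4 * k + 5 + i) = v i := fun i => by
      rw [ext_apply w (by have := i.isLt; omega)]
      simp [hw]
    rw [ext_apply u (by omega), ext_apply u (by omega)] at hs
    subst hs
    simp only [hhigh, hlow _ (Fin.isLt _), hlow _ (show 4 * k + 3 < 4 * k + 5 by omega),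
      hlow _ (show 4 * k + 4 < 4 * k + 5 by omega), Fin.eta]

theorem baseCount :
    ∀ s : Fin 4 × Fin 4, (univ.filter fun f : Fin 5 → Fin 4 => BaseOK f ∧ (f 3, f 4) = s).card
      = if s = (1, 0) ∨ s = (3, 2) then 3 else 0 := by
  decide +kernel

theorem stepCount_support :
    ∀ s', s' ≠ ((1, 0) : Fin 4 × Fin 4) → s' ≠ (3, 2) →
      stepCount (1, 0) s' = 0 ∧ stepCount (3, 2) s' = 0 := by
  decide +kernel

theorem stepCount_parity :
    stepCount (1, 0) (3, 2) % 2 = 1 ∧ stepCount (1, 0) (1, 0) % 2 = 0 ∧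
      stepCount (3, 2) (1, 0) % 2 = 1 ∧ stepCount (3, 2) (3, 2) % 2 = 0 := by
  decide +kernel

/-- Only the states `(1,0)` and `(3,2)` occur, and each an odd number of times. -/
theorem stateSet_card : ∀ k,
    (∀ s, s ≠ ((1, 0) : Fin 4 × Fin 4) → s ≠ (3, 2) → (stateSet k s).card = 0) ∧
      Odd (stateSet k (1, 0)).card ∧ Odd (stateSet k (3, 2)).card
  | 0 => by
    have e : ∀ s, (stateSet 0 s).card = if s = (1, 0) ∨ s = (3, 2) then 3 else 0 := fun s => by
      rw [← baseCount s]
      refine congrArg Finset.card (Finset.ext fun u => ?_)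
      classical
      rw [stateSet, mem_filter, mem_filter]
      simp only [mem_univ, true_and]
      show (BaseOK fun i : Fin 5 => ext u i) ∧ (ext u 3, ext u 4) = s ↔ _
      rw [show (fun i : Fin 5 => ext u i) = u from funext fun i => ext_apply u i.isLt,
        ext_apply u (show 3 < 5 by omega), ext_apply u (show 4 < 5 by omega)]
      rfl
    refine ⟨fun s h1 h2 => by simp [e, h1, h2], ?_, ?_⟩ <;> simp [e] <;> decide
  | k + 1 => by
    obtain ⟨h0, ho1, ho2⟩ := stateSet_card k
    have e : ∀ s', (stateSet (k + 1) s').card = (stateSet k (1, 0)).card * stepCount (1, 0) s'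
        + (stateSet k (3, 2)).card * stepCount (3, 2) s' := fun s' => by
      rw [stateSet_succ, ← sum_pair (f := fun s => (stateSet k s).card * stepCount s s')
        (show ((1, 0) : Fin 4 × Fin 4) ≠ (3, 2) by decide)]
      refine (sum_subset (subset_univ _) fun s _ hs => ?_).symm
      simp only [mem_insert, mem_singleton, not_or] at hs
      rw [h0 s hs.1 hs.2, zero_mul]
    obtain ⟨p1, p2, p3, p4⟩ := stepCount_parity
    rw [Nat.odd_iff] at ho1 ho2
    refine ⟨fun s h1 h2 => ?_, ?_, ?_⟩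
    · obtain ⟨z1, z2⟩ := stepCount_support s h1 h2
      rw [e, z1, z2]; rfl
    · rw [Nat.odd_iff, e]; simp [Nat.add_mod, Nat.mul_mod, ho1, p2, ho2, p3]
    · rw [Nat.odd_iff, e]; simp [Nat.add_mod, Nat.mul_mod, ho1, p1, ho2, p4]

/-- A function on `Fin 4` with six inequalities is injective. -/
theorem injective_four {α : Type*} {g : Fin 4 → α} (h1 : g 0 ≠ g 1) (h2 : g 0 ≠ g 2)
    (h3 : g 0 ≠ g 3) (h4 : g 1 ≠ g 2) (h5 : g 1 ≠ g 3) (h6 : g 2 ≠ g 3) : Function.Injective g := by
  intro r r' h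
  fin_cases r <;> fin_cases r' <;> first
    | rfl
    | exact absurd h h1 | exact absurd h h2 | exact absurd h h3 | exact absurd h h4
    | exact absurd h h5 | exact absurd h h6
    | exact absurd h.symm h1 | exact absurd h.symm h2 | exact absurd h.symm h3
    | exact absurd h.symm h4 | exact absurd h.symm h5 | exact absurd h.symm h6

/-- `PreOK` in terms of the local conditions. -/
theorem preOK_iff : ∀ k (f : ℕ → Fin 4), PreOK k f ↔
    lo (f 0) = 1 ∧ (∀ i, 2 * i + 1 < 4 * k + 5 → hi (f (2 * i)) ≠ hi (f (2 * i + 1))) ∧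
      (∀ i, 2 * i + 2 < 4 * k + 5 → lo (f (2 * i + 1)) ≠ lo (f (2 * i + 2))) ∧
      ∀ q : Fin (k + 1), Function.Injective fun r : Fin 4 => f (qpos k q r) := by
  intro k f
  induction k with
  | zero =>
    constructor
    · rintro ⟨h0, a, b, c, d, e1, e2, e3, e4, e5, e6⟩
      refine ⟨h0, fun i hi' => ?_, fun i hi' => ?_, fun q => ?_⟩
      · obtain rfl | rfl : i = 0 ∨ i = 1 := by omega
        exacts [a, c]
      · obtain rfl | rfl : i = 0 ∨ i = 1 := by omega
        exacts [b, d]
      · obtain rfl : q = 0 := Fin.ext (by have := q.isLt; simp)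
        exact injective_four e1 e2 e3 e4 e5 e6
    · rintro ⟨h0, hh, hl, hq⟩
      have q0 : ∀ r r' : Fin 4, r ≠ r' → f (qoff 0 r) ≠ f (qoff 0 r') := fun r r' h h' =>
        h (hq 0 h')
      exact ⟨h0, hh 0 (by omega), hl 0 (by omega), hh 1 (by omega), hl 1 (by omega),
        q0 0 1 (by decide), q0 0 2 (by decide), q0 0 3 (by decide), q0 1 2 (by decide),
        q0 1 3 (by decide), q0 2 3 (by decide)⟩
  | succ k ih =>
    rw [PreOK, ih]
    have hlast : (fun r : Fin 4 => qpos (k + 1) (Fin.last (k + 1)) r)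
        = fun r : Fin 4 => ![4 * k + 3, 4 * k + 5, 4 * k + 6, 4 * k + 8] r := by
      funext r; fin_cases r <;> simp [qpos, qoff] <;> omega
    constructor
    · rintro ⟨⟨h0, hh, hl, hq⟩, a, b, c, d, e1, e2, e3, e4, e5, e6⟩
      refine ⟨h0, fun i hi' => ?_, fun i hi' => ?_, fun q => ?_⟩
      · rcases (by omega : 2 * i + 1 < 4 * k + 5 ∨ i = 2 * k + 2 ∨ i = 2 * k + 3) with h | h | h
        · exact hh i h
        · subst h
          have : 2 * (2 * k + 2) = 4 * k + 4 := by ring
          rw [this]; exact a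
        · subst h
          have : 2 * (2 * k + 3) = 4 * k + 5 + 1 := by ring
          rw [this]; exact c
      · rcases (by omega : 2 * i + 2 < 4 * k + 5 ∨ i = 2 * k + 2 ∨ i = 2 * k + 3) with h | h | h
        · exact hl i h
        · subst h
          have : 2 * (2 * k + 2) = 4 * k + 4 := by ring
          rw [this]; exact b
        · subst h
          have : 2 * (2 * k + 3) = 4 * k + 6 := by ring
          rw [this]; exact d
      · refine Fin.lastCases ?_ (fun q' => ?_) q
        · rw [show (fun r : Fin 4 => f (qpos (k + 1) (Fin.last (k + 1)) r))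
              = fun r : Fin 4 => f (![4 * k + 3, 4 * k + 5, 4 * k + 6, 4 * k + 8] r) from
                funext fun r => congrArg f (congrFun hlast r)]
          exact injective_four e1 e2 e3 e4 e5 e6
        · exact hq q'
    · rintro ⟨h0, hh, hl, hq⟩
      refine ⟨⟨h0, fun i hi' => hh i (by omega), fun i hi' => hl i (by omega),
        fun q => hq q.castSucc⟩, ?_⟩
      have a := hh (2 * k + 2) (by omega)
      have c := hh (2 * k + 3) (by omega)
      have b := hl (2 * k + 2) (by omega)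
      have d := hl (2 * k + 3) (by omega)
      rw [show 2 * (2 * k + 2) = 4 * k + 4 by ring] at a b
      rw [show 2 * (2 * k + 3) = 4 * k + 6 by ring] at c d
      have hL : ∀ r r' : Fin 4, r ≠ r' → f (![4 * k + 3, 4 * k + 5, 4 * k + 6, 4 * k + 8] r)
          ≠ f (![4 * k + 3, 4 * k + 5, 4 * k + 6, 4 * k + 8] r') := fun r r' h h' => by
        refine h (hq (Fin.last (k + 1)) ?_)
        simp only [congrFun hlast]
        exact h'
      exact ⟨a, b, c, d, hL 0 1 (by decide), hL 0 2 (by decide), hL 0 3 (by decide),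
        hL 1 2 (by decide), hL 1 3 (by decide), hL 2 3 (by decide)⟩

/-- The pairs are `(3,0)` and the rest is a good prefix ending in the state `(3,2)`. -/
theorem valid_good_iff (b t : ℕ) (τ : Fin (2 * b + 4 * t + 5) → Fin 4) :
    Valid τ ∧ GoodW b t τ ↔
      (∀ j : Fin b, τ (pairPos b t (j, 0)) = 3 ∧ τ (pairPos b t (j, 1)) = 0) ∧
        (fun i : Fin (4 * t + 5) => τ ⟨2 * b + i, by have := i.isLt; omega⟩)
          ∈ stateSet t (3, 2) := by
  classical
  set g := ext τ with hg
  have hτ : ∀ n (h : n < 2 * b + 4 * t + 5), τ ⟨n, h⟩ = g n := fun n h => (ext_apply τ h).symm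
  set u : Fin (4 * t + 5) → Fin 4 := fun i => τ ⟨2 * b + i, by have := i.isLt; omega⟩ with hu
  have hgu : ∀ i < 4 * t + 5, g (2 * b + i) = ext u i := fun i h => by
    rw [ext_apply u h, hu]; exact ext_apply τ _
  have hpre : PreOK t (ext u) ↔ PreOK t (fun i => g (2 * b + i)) :=
    preOK_congr t fun i h => (hgu i h).symm
  have hmem : u ∈ stateSet t (3, 2) ↔ PreOK t (fun i => g (2 * b + i)) ∧
      g (2 * b + (4 * t + 3)) = 3 ∧ g (2 * b + (4 * t + 4)) = 2 := by
    simp only [stateSet, mem_filter, mem_univ, true_and, Prod.mk.injEq, hpre,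
      hgu _ (show 4 * t + 3 < 4 * t + 5 by omega), hgu _ (show 4 * t + 4 < 4 * t + 5 by omega)]
  rw [hmem]
  simp only [Valid, GoodW, pairPos, quadPos, singlePos, hτ, preOK_iff, ← add_assoc, Fin.val_zero,
    Fin.val_one, add_zero]
  have hq4 : ∀ x : Fin 4, x = 0 ∨ x = 3 → ∀ y : Fin 4, y = 0 ∨ y = 3 → x ≠ y → lo x = 1 →
      x = 3 ∧ y = 0 := by decide
  constructor
  · rintro ⟨⟨hh, hend, h0, hl⟩, hpair, hquad, hsing⟩
    have hlo : ∀ j ≤ b, lo (g (2 * j)) = 1 ∧
        ∀ j' < j, g (2 * j') = 3 ∧ g (2 * j' + 1) = 0 := by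
      intro j hj
      induction j with
      | zero => exact ⟨h0 (by omega), fun j' hj' => absurd hj' (Nat.not_lt_zero _)⟩
      | succ j ih =>
        obtain ⟨hlj, hrest⟩ := ih (by omega)
        obtain ⟨hne, hv⟩ := hpair ⟨j, by omega⟩
        have hv0 := hv 0
        have hv1 := hv 1
        simp only [Fin.val_zero, Fin.val_one, add_zero] at hne hv0 hv1
        obtain ⟨e0, e1⟩ := hq4 _ hv0 _ hv1 hne hlj
        refine ⟨?_, fun j' hj' => ?_⟩
        · have hne' := hl j (by omega)
          rw [e1] at hne'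
          rw [show 2 * (j + 1) = 2 * j + 2 by ring]
          revert hne'
          generalize g (2 * j + 2) = x
          revert x
          decide
        · rcases (by omega : j' < j ∨ j' = j) with h | h
          · exact hrest j' h
          · subst h; exact ⟨e0, e1⟩
    have hP : PreOK t fun i => g (2 * b + i) := by
      rw [preOK_iff]
      refine ⟨(hlo b le_rfl).1, fun i hi' => ?_, fun i hi' => ?_, hquad⟩
      · have := hh (b + i) (by omega)
        rwa [mul_add] at this
      · have := hl (b + i) (by omega)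
        rwa [mul_add] at this
    have hs := (stateSet_card t).1 (g (2 * b + (4 * t + 3)), g (2 * b + (4 * t + 4)))
    have hcases : (g (2 * b + 4 * t + 3), g (2 * b + 4 * t + 4)) = ((1, 0) : Fin 4 × Fin 4) ∨
        (g (2 * b + 4 * t + 3), g (2 * b + 4 * t + 4)) = (3, 2) := by
      by_contra hc
      rw [not_or] at hc
      simp only [← add_assoc] at hs
      have hz := hs hc.1 hc.2
      rw [card_eq_zero] at hz
      have : u ∈ stateSet t (g (2 * b + 4 * t + 3), g (2 * b + 4 * t + 4)) := by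
        simp only [stateSet, mem_filter, mem_univ, true_and, hpre,
          ← hgu _ (show 4 * t + 3 < 4 * t + 5 by omega),
          ← hgu _ (show 4 * t + 4 < 4 * t + 5 by omega), ← add_assoc, and_true]
        exact hP
      rw [hz] at this
      exact notMem_empty _ this
    refine ⟨fun j => (hlo b le_rfl).2 j j.isLt, (preOK_iff t _).1 hP, ?_⟩
    have hend' := hend (by omega)
    rw [show 2 * b + 4 * t + 5 - 1 = 2 * b + 4 * t + 4 by omega] at hend'
    rcases hcases with h | h <;> simp only [Prod.mk.injEq] at h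
    · rw [h.2] at hend'
      exact absurd hend' (by decide)
    · exact h
  · rintro ⟨hp, ⟨h0, hh, hl, hq⟩, e3, e2⟩
    refine ⟨⟨fun i hi' => ?_, fun _ => ?_, fun _ => ?_, fun i hi' => ?_⟩,
      fun j => ⟨?_, fun e => ?_⟩, hq, Or.inr e3⟩
    · rcases lt_or_ge i b with h | h
      · rw [(hp ⟨i, h⟩).1, (hp ⟨i, h⟩).2]; decide
      · obtain ⟨c, rfl⟩ : ∃ c, i = b + c := ⟨i - b, by omega⟩
        have := hh c (by omega)
        rwa [mul_add]
    · rw [show 2 * b + 4 * t + 5 - 1 = 2 * b + 4 * t + 4 by omega, e2]; decide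
    · rcases Nat.eq_zero_or_pos b with h | h
      · subst h; simpa using h0
      · have := (hp ⟨0, h⟩).1
        simp only [mul_zero] at this
        rw [this]; decide
    · rcases lt_or_ge i b with h | h
      · rw [(hp ⟨i, h⟩).2]
        rcases (by omega : i + 1 < b ∨ i + 1 = b) with h' | h'
        · rw [show 2 * i + 2 = 2 * (i + 1) by ring, (hp ⟨i + 1, h'⟩).1]; decide
        · rw [show 2 * i + 2 = 2 * b by omega, h0]; decide
      · obtain ⟨c, rfl⟩ : ∃ c, i = b + c := ⟨i - b, by omega⟩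
        have := hl c (by omega)
        rwa [mul_add]
    · rw [(hp j).1, (hp j).2]; decide
    · fin_cases e <;> simp [(hp j).1, (hp j).2]

/-- (a) The single of a valid good word is `3`. -/
theorem single_eq_three (b t : ℕ) (τ : Fin (2 * b + 4 * t + 5) → Fin 4) (hv : Valid τ)
    (hg : GoodW b t τ) : τ (singlePos b t) = 3 := by
  classical
  obtain ⟨-, hmem⟩ := (valid_good_iff b t τ).1 ⟨hv, hg⟩
  simp only [stateSet, mem_filter, mem_univ, true_and, Prod.mk.injEq] at hmem
  have := hmem.2.1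
  rw [ext_apply _ (show 4 * t + 3 < 4 * t + 5 by omega)] at this
  simpa [singlePos, add_assoc] using this

open scoped Classical in
/-- (b) The number of valid good words is odd. -/
theorem odd_card_valid_good (b t : ℕ) :
    Odd (univ.filter fun τ : Fin (2 * b + 4 * t + 5) → Fin 4 => Valid τ ∧ GoodW b t τ).card := by
  have e : (univ.filter fun τ : Fin (2 * b + 4 * t + 5) → Fin 4 => Valid τ ∧ GoodW b t τ).card
      = (stateSet t (3, 2)).card := by
    refine card_bij'
      (fun τ _ => fun i : Fin (4 * t + 5) => τ ⟨2 * b + i, by have := i.isLt; omega⟩)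
      (fun u _ => fun i => if h : 2 * b ≤ (i : ℕ)
        then u ⟨i - 2 * b, by have := i.isLt; omega⟩ else if (i : ℕ) % 2 = 0 then 3 else 0)
      ?_ ?_ ?_ ?_
    · intro τ hτ
      exact ((valid_good_iff b t τ).1 (mem_filter.1 hτ).2).2
    · intro u hu
      rw [mem_filter]
      refine ⟨mem_univ _, (valid_good_iff b t _).2 ⟨fun j => ?_, ?_⟩⟩
      · simp [pairPos, show ¬ (2 * b ≤ 2 * (j : ℕ)) by have := j.isLt; omega,
          show ¬ (2 * b ≤ 2 * (j : ℕ) + 1) by have := j.isLt; omega]
      · simpa using hu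
    · intro τ hτ
      obtain ⟨hp, -⟩ := (valid_good_iff b t τ).1 (mem_filter.1 hτ).2
      funext i
      simp only
      split_ifs with h h2
      · exact congrArg τ (Fin.ext (by simp; omega))
      · rw [← (hp ⟨i / 2, by omega⟩).1]
        exact congrArg τ (Fin.ext (by simp [pairPos]; omega))
      · rw [← (hp ⟨i / 2, by omega⟩).2]
        exact congrArg τ (Fin.ext (by simp [pairPos]; omega))
    · intro u _
      funext i
      simp
  rw [e]
  exact (stateSet_card t).2.2

end Vale.Agent.P197.Words
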