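import Vale.Agent.P197.BandOne
import Vale.Agent.P197.BandTwo
import Vale.Agent.P197.Words

/-!
# P197: the two induction steps for `KeyOK`
-/

namespace Vale.Agent.P197

open Matrix Finset Polynomial

theorem keyOK_zero {K : ℕ} {l : Fin K → ℕ} (h : ∑ k, l k = 0) : KeyOK 0 l := by
  have hl : ∀ k, l k = 0 := fun k => by
    simpa using (Finset.sum_eq_zero_iff.1 h) k (Finset.mem_univ k)
  have : IsEmpty (Cells l) := ⟨fun x => by have := x.2.isLt; have := hl x.1; omega⟩
  have : IsEmpty (Stair 0) := ⟨fun x => x.1.1.elim0⟩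
  have : Fact (Nat.Prime 2) := ⟨Nat.prime_two⟩
  refine ⟨ZMod 2, inferInstance, inferInstance, inferInstance, Equiv.equivOfIsEmpty _ _,
    fun _ _ _ => 1, ?_⟩
  simp [Fsum, wR, wC, chi]

theorem keyOK_one {m K : ℕ} {Cl : Type} [Fintype Cl] [DecidableEq Cl] {sz : Cl → ℕ}
    (hsz : ∀ c, sz c = 1) (hcard : Fintype.card Cl = m + 1) {l l' : Fin K → ℕ} (e : Ext l l' sz)
    (h : KeyOK m l') : KeyOK (m + 1) l := by
  obtain ⟨R, _, _, _, T', z, hz⟩ := h
  have hc : Fintype.card (BC sz) = Fintype.card (Band m 1) := by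
    rw [Fintype.card_congr (bandOneEquiv m), Fintype.card_fin, Fintype.card_sigma]
    simp [hsz, hcard]
  let E : BC sz ≃ Band m 1 := Fintype.equivOfCardEq hc
  refine ⟨R[X], inferInstance, inferInstance, inferInstance, e.tab T' E,
    znew 1 (fun _ _ _ => 1) z, fun h0 => hz ?_⟩
  have h1 := congrArg (fun p => p.coeff (bandDeg l' e.ι sz)) h0
  simp only [coeff_zero] at h1
  rw [coeff_Fsum, bandG_one hsz, one_mul] at h1
  exact h1

section Two

variable {B t : ℕ}

/-- Sizes of the classes: pairs, quads and a single. -/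
def bsz (B t : ℕ) : Fin B ⊕ (Fin (t + 1) ⊕ Unit) → ℕ :=
  Sum.elim (fun _ => 2) (Sum.elim (fun _ => 4) fun _ => 1)

/-- Positions of the classes in the word. -/
def clsPos (B t : ℕ) : BC (bsz B t) → Fin (2 * B + 4 * t + 5)
  | ⟨Sum.inl j, i⟩ => Words.pairPos B t (j, i)
  | ⟨Sum.inr (Sum.inl q), i⟩ => Words.quadPos B t (q, i)
  | ⟨Sum.inr (Sum.inr _), _⟩ => Words.singlePos B t

theorem clsPos_bijective (B t : ℕ) : Function.Bijective (clsPos B t) := by
  rw [Fintype.bijective_iff_injective_and_card]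
  constructor
  · rintro ⟨j | q | u, i⟩ ⟨j' | q' | u', i'⟩ h
    · obtain ⟨rfl, rfl⟩ := Prod.ext_iff.1 (Sum.inl.inj (Sum.inl.inj
        (@Words.cpos_injective B t (Sum.inl (Sum.inl (j, i))) (Sum.inl (Sum.inl (j', i'))) h)))
      rfl
    · exact absurd (@Words.cpos_injective B t (Sum.inl (Sum.inl (j, i)))
        (Sum.inl (Sum.inr (q', i'))) h) (by simp)
    · exact absurd (@Words.cpos_injective B t (Sum.inl (Sum.inl (j, i))) (Sum.inr ()) h) (by simp)
    · exact absurd (@Words.cpos_injective B t (Sum.inl (Sum.inr (q, i)))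
        (Sum.inl (Sum.inl (j', i'))) h) (by simp)
    · obtain ⟨rfl, rfl⟩ := Prod.ext_iff.1 (Sum.inr.inj (Sum.inl.inj
        (@Words.cpos_injective B t (Sum.inl (Sum.inr (q, i))) (Sum.inl (Sum.inr (q', i'))) h)))
      rfl
    · exact absurd (@Words.cpos_injective B t (Sum.inl (Sum.inr (q, i))) (Sum.inr ()) h) (by simp)
    · exact absurd (@Words.cpos_injective B t (Sum.inr ()) (Sum.inl (Sum.inl (j', i'))) h) (by simp)
    · exact absurd (@Words.cpos_injective B t (Sum.inr ()) (Sum.inl (Sum.inr (q', i'))) h) (by simp)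
    · cases u; cases u'
      rw [show i = i' from Fin.ext (by have := i.isLt; have := i'.isLt; simp [bsz] at *; omega)]
  · rw [Fintype.card_sigma, Finset.sum_congr rfl fun c _ => Fintype.card_fin (bsz B t c)]
    simp [bsz]
    omega

/-- The cells of the classes as band cells. -/
noncomputable def clsBand (B t : ℕ) : BC (bsz B t) ≃ Band (B + 2 * t + 1) 2 :=
  (Equiv.ofBijective _ (clsPos_bijective B t)).trans
    ((finCongr (by omega)).trans (bandPos (B + 2 * t + 1)).symm)

/-- A word of the band read in the coordinates of `Words`. -/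
def toW (τ : Fin (2 * (B + 2 * t + 1) + 3) → Fin 4) : Fin (2 * B + 4 * t + 5) → Fin 4 :=
  fun i => τ ⟨i.val, by omega⟩

theorem valid_toW (τ : Fin (2 * (B + 2 * t + 1) + 3) → Fin 4) :
    RowOK τ ∧ ColOK τ ↔ Words.Valid (toW τ) := by
  constructor
  · rintro ⟨⟨h1, h2⟩, h3, h4⟩
    exact ⟨fun i hi => h1 _ _ (by simp) rfl, fun _ => h2 _ (by simp; omega),
      fun _ => h4 _ rfl, fun i hi => h3 _ _ (by simp) (by simp)⟩
  · rintro ⟨h1, h2, h3, h4⟩
    refine ⟨⟨?_, ?_⟩, ?_, ?_⟩
    · intro p q hp hq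
      have := q.isLt
      have := h1 (p.val / 2) (by omega)
      simp only [toW] at this
      have e1 : (⟨2 * (p.val / 2), by omega⟩ : Fin (2 * (B + 2 * t + 1) + 3)) = p :=
        Fin.ext (by simp; omega)
      have e2 : (⟨2 * (p.val / 2) + 1, by omega⟩ : Fin (2 * (B + 2 * t + 1) + 3)) = q :=
        Fin.ext (by simp; omega)
      rw [e1, e2] at this
      exact this
    · intro p hp
      have := h2 (by omega)
      simp only [toW] at this
      rw [← this]
      unfold hiB Words.hi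
      congr 3
      exact Fin.ext (by simp; omega)
    · intro p q hp hq
      have := q.isLt
      have := h4 (p.val / 2) (by omega)
      simp only [toW] at this
      have e1 : (⟨2 * (p.val / 2) + 1, by omega⟩ : Fin (2 * (B + 2 * t + 1) + 3)) = p :=
        Fin.ext (by simp; omega)
      have e2 : (⟨2 * (p.val / 2) + 2, by omega⟩ : Fin (2 * (B + 2 * t + 1) + 3)) = q :=
        Fin.ext (by simp; omega)
      rw [e1, e2] at this
      exact this
    · intro p hp
      have := h3 (by omega)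
      simp only [toW] at this
      rw [← this]
      unfold loB Words.lo
      congr 3
      exact Fin.ext hp

theorem word_at (τ : Fin (2 * (B + 2 * t + 1) + 3) → Fin 4) (x : BC (bsz B t)) :
    τ (bandPos _ (clsBand B t x)) = toW τ (clsPos B t x) := by
  simp only [clsBand, Equiv.trans_apply, Equiv.apply_symm_apply, toW]
  rfl

/-- The reference letters of the classes. -/
def ref0 (B t : ℕ) : BC (bsz B t) → Fin 4
  | ⟨Sum.inl _, i⟩ => if i.val = 0 then 3 else 0
  | ⟨Sum.inr (Sum.inl _), i⟩ => i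
  | ⟨Sum.inr (Sum.inr _), _⟩ => 3

theorem ref0_injective (B t : ℕ) (c : Fin B ⊕ (Fin (t + 1) ⊕ Unit)) :
    Function.Injective fun i : Fin (bsz B t c) => ref0 B t ⟨c, i⟩ := by
  intro i i' h
  have := i.isLt
  have := i'.isLt
  rcases c with j | q | u <;> simp only [ref0] at h
  · apply Fin.ext
    simp [bsz] at *
    split_ifs at h <;> simp at h <;> omega
  · exact h
  · exact Fin.ext (by simp [bsz] at *; omega)

theorem nLet_zero_iff : ∀ a : Fin 4, nLet a = 0 ↔ a = 0 ∨ a = 3 := by decide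

theorem pair_perm : ∀ f : Fin 2 → Fin 4, f 0 ≠ f 1 → (∀ e, f e = 0 ∨ f e = 3) → ∀ i : Fin 2,
    (if ((if f 0 = 3 then Equiv.refl (Fin 2) else Equiv.swap 0 1) i).val = 0 then (3 : Fin 4)
      else 0) = f i := by decide

theorem sum_nLet_perm {f : Fin 4 → Fin 4} (hf : Function.Injective f) : ∑ r, nLet (f r) = 2 := by
  have h := Equiv.sum_comp (Equiv.ofBijective f (Finite.injective_iff_bijective.1 hf)) nLet
  simp only [Equiv.ofBijective_apply] at h
  rw [h]; decide

theorem sum_cls (f : BC (bsz B t) → ℕ) :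
    ∑ x, f x = (∑ j : Fin B, ∑ i : Fin 2, f ⟨Sum.inl j, i⟩) +
      ((∑ q : Fin (t + 1), ∑ i : Fin 4, f ⟨Sum.inr (Sum.inl q), i⟩) +
        f ⟨Sum.inr (Sum.inr ()), (0 : Fin 1)⟩) := by
  rw [Fintype.sum_sigma, Fintype.sum_sum_type, Fintype.sum_sum_type]
  congr 2

theorem bandG_two_ne_zero {R : Type} [CommRing R] [IsDomain R] [CharP R 2] {K : ℕ}
    (l' : Fin K → ℕ) (ι : Fin B ⊕ (Fin (t + 1) ⊕ Unit) → Fin K) :
    bandG l' ι (clsBand B t) (zeta2 R) ≠ 0 := by
  classical
  intro h0
  have hc := coeff_bandG_two (R := R) l' ι (clsBand B t) (2 * (t + 1))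
  rw [h0, coeff_zero] at hc
  simp only [word_at] at hc
  set r0 : Fin B ⊕ (Fin (t + 1) ⊕ Unit) → ℕ := fun c => l' (ι c) with hr0
  let D := fun τ : Fin (2 * (B + 2 * t + 1) + 3) → Fin 4 =>
    detS R r0 (fun x => toW τ (clsPos B t x))
  let G := Finset.univ.filter fun τ : Fin (2 * (B + 2 * t + 1) + 3) → Fin 4 =>
    Words.Valid (toW τ) ∧ Words.GoodW B t (toW τ)
  -- good words have the right degree and the same determinant
  have hgood : ∀ τ ∈ G, (∑ x, nLet (toW τ (clsPos B t x)) = 2 * (t + 1)) ∧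
      D τ = detS R r0 (ref0 B t) := by
    intro τ hτ
    obtain ⟨hv, hg⟩ := (Finset.mem_filter.1 hτ).2
    have hs := Words.single_eq_three B t _ hv hg
    obtain ⟨hp, hq, -⟩ := hg
    constructor
    · rw [sum_cls]
      have h1 : ∀ j : Fin B, ∑ i : Fin 2, nLet (toW τ (clsPos B t ⟨Sum.inl j, i⟩)) = 0 :=
        fun j => Finset.sum_eq_zero fun i _ => (nLet_zero_iff _).2 ((hp j).2 i)
      have h2 : ∀ q : Fin (t + 1),
          ∑ i : Fin 4, nLet (toW τ (clsPos B t ⟨Sum.inr (Sum.inl q), i⟩)) = 2 :=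
        fun q => sum_nLet_perm (hq q)
      rw [Finset.sum_congr rfl fun j _ => h1 j, Finset.sum_congr rfl fun q _ => h2 q]
      simp [clsPos, hs, nLet, hiB, loB, mul_comm]
    · let p : ∀ c, Equiv.Perm (Fin (bsz B t c))
        | Sum.inl j =>
          if toW τ (Words.pairPos B t (j, 0)) = 3 then Equiv.refl (Fin 2)
          else Equiv.swap (0 : Fin 2) (1 : Fin 2)
        | Sum.inr (Sum.inl q) =>
          Equiv.ofBijective (fun r => toW τ (Words.quadPos B t (q, r)))
            (Finite.injective_iff_bijective.1 (hq q))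
        | Sum.inr (Sum.inr _) => Equiv.refl _
      rw [← detS_perm r0 (ref0 B t) p]
      show detS R r0 _ = _
      congr 1
      funext ⟨c, i⟩
      rcases c with j | q | u
      · obtain ⟨hne, hval⟩ := hp j
        exact (pair_perm (fun e => toW τ (Words.pairPos B t (j, e))) hne hval i).symm
      · rfl
      · exact hs
  -- the other words of that degree have a repeated letter in a class
  have hkey : ∑ τ ∈ G, D τ = 0 := by
    rw [hc]
    refine Finset.sum_subset ?_ ?_
    · intro τ hτ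
      have := (Finset.mem_filter.1 hτ).2.1
      rw [← valid_toW] at this
      exact Finset.mem_filter.2 ⟨Finset.mem_univ _, this.1, this.2, (hgood τ hτ).1⟩
    · intro τ hτ hnot
      obtain ⟨-, hR, hC, hn⟩ := Finset.mem_filter.1 hτ
      by_contra hD
      apply hnot
      refine Finset.mem_filter.2 ⟨Finset.mem_univ _, (valid_toW τ).1 ⟨hR, hC⟩, ?_⟩
      have hinj : ∀ c, Function.Injective fun i : Fin (bsz B t c) =>
          toW τ (clsPos B t ⟨c, i⟩) := by
        intro c i i' h
        by_contra hne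
        exact hD (detS_eq_zero_of_eq r0 _ (x := ⟨c, i⟩) (x' := ⟨c, i'⟩) (by simpa using hne) rfl h)
      rw [sum_cls] at hn
      have h2 : ∀ q : Fin (t + 1),
          ∑ i : Fin 4, nLet (toW τ (clsPos B t ⟨Sum.inr (Sum.inl q), i⟩)) = 2 :=
        fun q => sum_nLet_perm (hinj (Sum.inr (Sum.inl q)))
      simp only [h2, Finset.sum_const, Finset.card_univ, Fintype.card_fin, smul_eq_mul] at hn
      have hp0 : ∑ j : Fin B, ∑ i : Fin 2, nLet (toW τ (clsPos B t ⟨Sum.inl j, i⟩)) = 0 := by omega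
      have hs0 : nLet (toW τ (Words.singlePos B t)) = 0 := by
        simp only [clsPos] at hn hp0
        omega
      refine ⟨fun j => ⟨?_, fun i => ?_⟩, fun q => hinj (Sum.inr (Sum.inl q)),
        (nLet_zero_iff _).1 hs0⟩
      · intro h
        exact absurd (hinj (Sum.inl j) (a₁ := (0 : Fin 2)) (a₂ := (1 : Fin 2)) h) (by simp [bsz])
      · exact (nLet_zero_iff _).1 (Finset.sum_eq_zero_iff.1
          (Finset.sum_eq_zero_iff.1 hp0 j (Finset.mem_univ _)) i (Finset.mem_univ _))
  rw [Finset.sum_congr rfl fun τ hτ => (hgood τ hτ).2, Finset.sum_const, nsmul_eq_mul] at hkey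
  have hcard : G.card = (Finset.univ.filter fun w : Fin (2 * B + 4 * t + 5) → Fin 4 =>
      Words.Valid w ∧ Words.GoodW B t w).card := by
    refine Finset.card_equiv (Equiv.arrowCongr (finCongr (by omega)) (Equiv.refl _)) fun τ => ?_
    simp only [G, Finset.mem_filter, Finset.mem_univ, true_and]
    rfl
  have hodd : ((G.card : ℕ) : R[X]) = 1 := by
    rw [hcard, CharTwo.natCast_eq_ite (R := R[X]),
      if_neg (Nat.not_even_iff_odd.2 (Words.odd_card_valid_good B t))]
  rw [hodd, one_mul] at hkey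
  exact detS_ne_zero r0 (ref0 B t) (ref0_injective B t) hkey

theorem keyOK_two {K : ℕ} {l l' : Fin K → ℕ} (e : Ext l l' (bsz B t))
    (h : KeyOK (B + 2 * t + 1) l') : KeyOK (B + 2 * t + 1 + 2) l := by
  obtain ⟨R, _, _, _, T', z, hz⟩ := h
  refine ⟨R[X][X][X], inferInstance, inferInstance, inferInstance, e.tab T' (clsBand B t),
    znew 2 (zeta2 R) (fun i j k => C (C (z i j k))), fun h0 => ?_⟩
  have h1 := congrArg (fun p => p.coeff (bandDeg l' e.ι (bsz B t))) h0
  simp only [coeff_zero] at h1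
  rw [coeff_Fsum] at h1
  rcases mul_eq_zero.1 h1 with h2 | h2
  · exact bandG_two_ne_zero l' e.ι h2
  · apply hz
    have h3 := map_Fsum ((C : R[X] →+* R[X][X]).comp (C : R →+* R[X])) T' z
    simp only [RingHom.comp_apply] at h3
    rw [← h3] at h2
    simpa using h2

end Two

end Vale.Agent.P197
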