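import Vale.Agent.P197.Basic
import Vale.Agent.P197.Inj

/-!
# P197: removing the bottom cells of `m + 1` columns

If the shape left after removing one bottom cell from each of `m + 1` columns is good at level `m`,
the shape is good at level `m + 1`: the map for the smaller shape is induced from every block of
`m + 1` points, and the sum over blocks is injective.
-/

namespace Vale.Agent.P197

open Finset Matrix Equiv

namespace Remove

variable {M n' B : ℕ} {X : Type}

/-- The signed indicator of a labelling that numbers `Fin M`. -/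
noncomputable def dm (M : ℕ) (u : Fin M → ℕ) : ℂ :=
  det (of fun y i : Fin M => if u y = i.val then (1 : ℂ) else 0)

lemma dm_comp (π : Perm (Fin M)) (u : Fin M → ℕ) :
    dm M (u ∘ π) = (Perm.sign π : ℂ) * dm M u := by
  rw [dm, dm, ← det_permute]
  rfl

lemma dm_val : dm M (fun i => i.val) = 1 := by
  rw [dm, show (of fun y i : Fin M => if y.val = i.val then (1 : ℂ) else 0) = 1 by
    ext y i; simp [Matrix.one_apply, Fin.val_inj], det_one]

lemma dm_support {u : Fin M → ℕ} (h : dm M u ≠ 0) : univ.image u = range M := by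
  rw [dm, det_apply'] at h
  obtain ⟨π, -, hπ⟩ := exists_ne_zero_of_sum_ne_zero h
  have hh : ∀ i, u (π i) = i.val := fun i => by
    by_contra hc
    exact hπ (by rw [prod_eq_zero (mem_univ i) (by simp [hc]), mul_zero])
  ext a
  simp only [mem_image, mem_univ, true_and, mem_range]
  constructor
  · rintro ⟨y, rfl⟩
    obtain ⟨i, rfl⟩ := π.surjective y
    rw [hh]; exact i.isLt
  · intro ha
    exact ⟨π ⟨a, ha⟩, hh _⟩

lemma sign_sq {α : Type} [Fintype α] [DecidableEq α] (π : Perm α) :
    ((Perm.sign π : ℤ) : ℂ) * ((Perm.sign π : ℤ) : ℂ) = 1 := by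
  rcases Int.units_eq_one_or (Perm.sign π) with h | h <;> simp [h]

/-- Restriction to the complement of a block, summed over the labellings of the block with the
given values. -/
noncomputable def restr (B : ℕ) (target : Multiset ℕ) (e : Fin n' ⊕ Fin M ≃ X) :
    Fn X →ₗ[ℂ] Fn (Fin n') where
  toFun f := fun u => ∑ w ∈ {w : Fin M → Fin B | univ.val.map (fun b => (w b : ℕ)) = target},
    f (Sum.elim u (fun b => (w b : ℕ)) ∘ e.symm)
  map_add' f g := by funext u; simp [sum_add_distrib]
  map_smul' c f := by funext u; simp [mul_sum]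

/-- Extension from the complement of a block. -/
noncomputable def extd (e : Fin n' ⊕ Fin M ≃ X) : Fn (Fin n') →ₗ[ℂ] Fn X where
  toFun g := fun s => dm M (s ∘ e ∘ Sum.inr) * g (s ∘ e ∘ Sum.inl)
  map_add' f g := by funext s; simp [mul_add]
  map_smul' c f := by funext s; simp [mul_left_comm]

/-- The same for two labellings. -/
noncomputable def extd2 (e : Fin n' ⊕ Fin M ≃ X) : Fn2 (Fin n') →ₗ[ℂ] Fn2 X where
  toFun g := fun s t => dm M (s ∘ e ∘ Sum.inr) * dm M (t ∘ e ∘ Sum.inr)
    * g (s ∘ e ∘ Sum.inl) (t ∘ e ∘ Sum.inl)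
  map_add' f g := by funext s t; simp [mul_add]
  map_smul' c f := by funext s t; simp [mul_left_comm]

/-- One block. -/
noncomputable def term (B : ℕ) (target : Multiset ℕ) (φ' : Fn (Fin n') →ₗ[ℂ] Fn2 (Fin n'))
    (e : Fin n' ⊕ Fin M ≃ X) : Fn X →ₗ[ℂ] Fn2 X :=
  extd2 e ∘ₗ φ' ∘ₗ restr B target e

lemma term_apply (target : Multiset ℕ) (φ' : Fn (Fin n') →ₗ[ℂ] Fn2 (Fin n'))
    (e : Fin n' ⊕ Fin M ≃ X) (f : Fn X) (s t : X → ℕ) :
    term B target φ' e f s t = dm M (s ∘ e ∘ Sum.inr) * dm M (t ∘ e ∘ Sum.inr)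
      * φ' (restr B target e f) (s ∘ e ∘ Sum.inl) (t ∘ e ∘ Sum.inl) := rfl

variable [Fintype X] [DecidableEq X]

/-- The block of an enumeration. -/
def block (e : Fin n' ⊕ Fin M ≃ X) : Finset X := univ.image fun b => e (Sum.inr b)

lemma card_block (e : Fin n' ⊕ Fin M ≃ X) : (block e).card = M := by
  rw [block, card_image_of_injective _ (f := fun b => e (Sum.inr b))
    (e.injective.comp Sum.inr_injective), card_univ, Fintype.card_fin]

/-- A term depends only on the block. -/
lemma term_eq {target : Multiset ℕ} {φ' : Fn (Fin n') →ₗ[ℂ] Fn2 (Fin n')}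
    (he : ∀ σ f, φ' (permL σ f) = perm2 σ (φ' f))
    {e₁ e₂ : Fin n' ⊕ Fin M ≃ X} (h : block e₁ = block e₂) :
    term B target φ' e₂ = term B target φ' e₁ := by
  set c : Perm (Fin n' ⊕ Fin M) := e₂.trans e₁.symm with hc
  have hr : ∀ b, ∃ b', c (Sum.inr b) = Sum.inr b' := fun b => by
    have : e₂ (Sum.inr b) ∈ block e₁ := h ▸ mem_image.2 ⟨b, mem_univ _, rfl⟩
    obtain ⟨b', -, hb'⟩ := mem_image.1 this
    exact ⟨b', by rw [hc, Equiv.trans_apply, ← hb', Equiv.symm_apply_apply]⟩
  choose ρf hρf using hr
  have hρ : Function.Bijective ρf := Finite.injective_iff_bijective.1 fun a b hab =>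
    Sum.inr_injective (c.injective (by rw [hρf, hρf, hab]))
  have hl : ∀ a, ∃ a', c (Sum.inl a) = Sum.inl a' := fun a => by
    rcases hca : c (Sum.inl a) with a' | b'
    · exact ⟨a', rfl⟩
    · obtain ⟨b, rfl⟩ := hρ.surjective b'
      rw [← hρf] at hca
      exact absurd (c.injective hca) (by simp)
  choose πf hπf using hl
  have hπ : Function.Bijective πf := Finite.injective_iff_bijective.1 fun a b hab =>
    Sum.inl_injective (c.injective (by rw [hπf, hπf, hab]))
  set π : Perm (Fin n') := Equiv.ofBijective πf hπ with hπdef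
  set ρ : Perm (Fin M) := Equiv.ofBijective ρf hρ with hρdef
  have hl' : e₂ ∘ Sum.inl = (e₁ ∘ Sum.inl) ∘ π := by
    funext a
    show e₂ (Sum.inl a) = e₁ (Sum.inl (πf a))
    rw [← hπf, hc, Equiv.trans_apply, Equiv.apply_symm_apply]
  have hr' : e₂ ∘ Sum.inr = (e₁ ∘ Sum.inr) ∘ ρ := by
    funext a
    show e₂ (Sum.inr a) = e₁ (Sum.inr (ρf a))
    rw [← hρf, hc, Equiv.trans_apply, Equiv.apply_symm_apply]
  have hR : ∀ f, restr B target e₂ f = permL π⁻¹ (restr B target e₁ f) := by
    intro f
    funext u
    show ∑ w ∈ _, _ = ∑ w ∈ _, _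
    refine sum_nbij' (fun w => w ∘ ρ.symm) (fun w => w ∘ ρ) ?_ ?_ ?_ ?_ ?_
    · intro w hw
      simp only [mem_filter, mem_univ, true_and] at hw ⊢
      rw [← hw]
      conv_rhs => rw [← map_univ_equiv ρ.symm]
      simp only [Finset.map_val, Multiset.map_map]
      rfl
    · intro w hw
      simp only [mem_filter, mem_univ, true_and] at hw ⊢
      rw [← hw]
      conv_rhs => rw [← map_univ_equiv ρ]
      simp only [Finset.map_val, Multiset.map_map]
      rfl
    · intro w _; funext b; simp
    · intro w _; funext b; simp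
    · intro w _
      congr 1
      funext x
      obtain ⟨y, rfl⟩ := e₂.surjective x
      simp only [Function.comp_apply, Equiv.symm_apply_apply]
      rcases y with a | b
      · rw [show e₁.symm (e₂ (Sum.inl a)) = Sum.inl (π a) from hπf a]
        simp
      · rw [show e₁.symm (e₂ (Sum.inr b)) = Sum.inr (ρ b) from hρf b]
        simp
  refine LinearMap.ext fun f => funext fun s => funext fun t => ?_
  rw [term_apply, term_apply, hR, he, perm2_apply, hl', hr', ← Function.comp_assoc s,
    ← Function.comp_assoc t, dm_comp, dm_comp, ← Function.comp_assoc s, ← Function.comp_assoc t]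
  simp only [Function.comp_assoc, ← Perm.coe_mul, mul_inv_cancel, Perm.coe_one, Function.comp_id]
  linear_combination (dm M (s ∘ e₁ ∘ Sum.inr) * dm M (t ∘ e₁ ∘ Sum.inr)
    * φ' (restr B target e₁ f) (s ∘ e₁ ∘ Sum.inl) (t ∘ e₁ ∘ Sum.inl)) * sign_sq ρ

/-- A first column split off the staircase. -/
def stairSplit (m : ℕ) : Stair (m + 1) ≃ Stair m ⊕ Fin (m + 1) where
  toFun x := if h : x.1.2.val = 0 then Sum.inr x.1.1
    else Sum.inl ⟨(⟨x.1.1.val, by have := x.2; omega⟩, ⟨x.1.2.val - 1, by have := x.2; omega⟩),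
      by have := x.2; show x.1.1.val + (x.1.2.val - 1) < m; omega⟩
  invFun := Sum.elim
    (fun y => ⟨(⟨y.1.1.val, by omega⟩, ⟨y.1.2.val + 1, by omega⟩), by
      have := y.2; show y.1.1.val + (y.1.2.val + 1) < m + 1; omega⟩)
    fun i => ⟨(i, 0), by have := i.isLt; simp; omega⟩
  left_inv x := by
    by_cases h : x.1.2.val = 0
    · simp only [dif_pos h, Sum.elim_inr]
      exact Subtype.ext (Prod.ext rfl (Fin.ext h.symm))
    · simp only [dif_neg h, Sum.elim_inl]
      exact Subtype.ext (Prod.ext (Fin.ext rfl) (Fin.ext (by simp; omega)))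
  right_inv := by
    rintro (y | i)
    · simp
    · simp

lemma extd_poly {m : ℕ} (e : Fin n' ⊕ Fin (m + 1) ≃ X) (T : Stair m ≃ Fin n') :
    extd e (poly sCol sRow T)
      = poly sCol sRow ((stairSplit m).trans ((T.sumCongr (Equiv.refl _)).trans e)) := by
  funext s
  show dm _ _ * det _ = det _
  conv_rhs => rw [← det_submatrix_equiv_self (stairSplit m).symm]
  rw [mul_comm, dm, ← det_fromBlocks_zero₂₁ _ 0 _]
  congr 1
  ext (x | b) (y | b') <;>
    simp [stairSplit, sCol, sRow, fromBlocks, Function.comp_def] <;> congr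

lemma extd2_mem {m : ℕ} (e : Fin n' ⊕ Fin (m + 1) ≃ X) {F : Fn2 (Fin n')}
    (hF : F ∈ Prod2 m (Fin n')) : extd2 e F ∈ Prod2 (m + 1) X := by
  have hL : ∀ g ∈ specR m (Fin n'), extd e g ∈ specR (m + 1) X := fun g hg => by
    have : specR m (Fin n') ≤ (specR (m + 1) X).comap (extd e) := by
      refine Submodule.span_le.2 ?_
      rintro _ ⟨T, rfl⟩
      show extd e (poly sCol sRow T) ∈ specR (m + 1) X
      rw [extd_poly]
      exact poly_mem_spec _ _ _
    exact this hg
  have : Prod2 m (Fin n') ≤ (Prod2 (m + 1) X).comap (extd2 e) := by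
    refine Submodule.map₂_le.2 fun f hf g hg => ?_
    rw [Submodule.mem_comap]
    rw [show extd2 e (outer f g) = outer (extd e f) (extd e g) by
      funext s t; simp only [outer_apply]; simp [extd2, extd]; ring]
    exact outer_mem_Prod2 (hL f hf) (hL g hg)
  exact this hF

/-- Vectors in `Prod2` are supported on labellings with short fibres. -/
lemma fibre_le {m : ℕ} {F : Fn2 X} (hF : F ∈ Prod2 m X) {s t : X → ℕ} (h : F s t ≠ 0) (a : ℕ) :
    #{x | s x = a} ≤ m - a := by
  by_contra hlt
  have key : ∀ f ∈ specR m X, f s = 0 := by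
    intro f hf
    induction hf using Submodule.span_induction with
    | mem f hf =>
      obtain ⟨T, rfl⟩ := hf
      by_contra hne
      change det _ ≠ 0 at hne
      rw [det_apply'] at hne
      obtain ⟨π, -, hπ⟩ := exists_ne_zero_of_sum_ne_zero hne
      have hh : ∀ y, s (T (π y)) = sRow y := fun y => by
        by_contra hc
        exact hπ (by rw [prod_eq_zero (mem_univ y) (by simp [hc]), mul_zero])
      apply hlt
      rw [← card_range (m - a)]
      refine card_le_card_of_injOn (fun x => sCol (π.symm (T.symm x))) ?_ ?_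
      · intro x hx
        simp only [coe_filter, Set.mem_ofPred_eq, mem_univ, true_and] at hx
        have h1 := hh (π.symm (T.symm x))
        simp only [Equiv.apply_symm_apply] at h1
        have h2 := (π.symm (T.symm x)).2
        simp only [coe_range, Set.mem_Iio, sCol, sRow] at h1 ⊢
        omega
      · intro x hx y hy hxy
        simp only [coe_filter, Set.mem_ofPred_eq, mem_univ, true_and] at hx hy
        have h1 := hh (π.symm (T.symm x))
        have h2 := hh (π.symm (T.symm y))
        simp only [Equiv.apply_symm_apply] at h1 h2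
        have : π.symm (T.symm x) = π.symm (T.symm y) := by
          apply Subtype.ext; apply Prod.ext <;> apply Fin.ext
          · exact h1.symm.trans ((hx.trans hy.symm).trans h2)
          · exact hxy
        exact T.symm.injective (π.symm.injective this)
    | zero => rfl
    | add f g _ _ hf hg => simp [hf, hg]
    | smul c f _ hf => simp [hf]
  apply h
  have : Prod2 m X ≤ LinearMap.ker (LinearMap.proj t ∘ₗ (LinearMap.proj s :
      Fn2 X →ₗ[ℂ] (X → ℕ) → ℂ)) := by
    refine Submodule.map₂_le.2 fun f hf g _ => ?_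
    show f s * g t = 0
    rw [key f hf, zero_mul]
  exact this hF

/-- Every set of the right size is a block. -/
lemma exists_block (hX : Fintype.card X = n' + M) (Y : Finset X) (hY : Y.card = M) :
    ∃ e : Fin n' ⊕ Fin M ≃ X, block e = Y := by
  have h1 : Fintype.card {x // x ∈ Y} = M := by rw [Fintype.card_coe, hY]
  have h2 : Fintype.card {x // x ∉ Y} = n' := by
    rw [Fintype.card_subtype_compl, h1, hX]
    omega
  refine ⟨((Fintype.equivFinOfCardEq h2).symm.sumCongr (Fintype.equivFinOfCardEq h1).symm).trans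
    ((Equiv.sumComm _ _).trans (Equiv.sumCompl _)), ?_⟩
  ext x
  simp only [block, mem_image, mem_univ, true_and]
  constructor
  · rintro ⟨b, rfl⟩
    simp
  · intro hx
    exact ⟨Fintype.equivFinOfCardEq h1 ⟨x, hx⟩, by simp⟩

end Remove

open Remove in
/-- Removing the bottom cells of `m + 1` columns. -/
theorem good_remove {m K : ℕ} (l : Fin K → ℕ) (S : Finset (Fin K)) (hS : S.card = m + 1)
    (hpos : ∀ k ∈ S, 0 < l k) (hsum : ∑ k, l k = N (m + 1))
    (IH : Good m (fun k => if k ∈ S then l k - 1 else l k)) : Good (m + 1) l := by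
  intro X _ _ hX
  set l' : Fin K → ℕ := fun k => if k ∈ S then l k - 1 else l k with hl'
  obtain ⟨φ', he', hmem', hne'⟩ := IH (Fin (N m)) (Fintype.card_fin _)
  let kS : Fin (m + 1) ≃ S := (Fintype.equivFinOfCardEq (by rw [Fintype.card_coe, hS])).symm
  set B := (∑ k, l k) + 1 with hB
  set target := univ.val.map (fun b => l (kS b) - 1) with htarget
  have hle : ∀ k, l' k ≤ l k := fun k => by simp only [hl']; split_ifs <;> omega
  let cs : Cells l' ⊕ Fin (m + 1) → Cells l := Sum.elim
    (fun x => ⟨x.1, Fin.castLE (hle x.1) x.2⟩)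
    (fun b => ⟨kS b, ⟨l (kS b) - 1, by have := hpos _ (kS b).2; omega⟩⟩)
  have hcs : Function.Bijective cs := by
    constructor
    · rintro (⟨k, i⟩ | b) (⟨k', i'⟩ | b') h <;> simp only [cs, Sum.elim_inl, Sum.elim_inr] at h <;>
        obtain ⟨h1, h2⟩ := Sigma.mk.inj_iff.1 h
      · subst h1
        simp only [heq_eq_eq, Fin.ext_iff, Fin.val_castLE] at h2
        simp [Fin.ext_iff, h2]
      · subst h1
        simp only [heq_eq_eq, Fin.ext_iff, Fin.val_castLE] at h2
        have := i.isLt
        have hk : l' (kS b') = l (kS b') - 1 := if_pos (kS b').2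
        omega
      · subst h1
        simp only [heq_eq_eq, Fin.ext_iff, Fin.val_castLE] at h2
        have := i'.isLt
        have hk : l' (kS b) = l (kS b) - 1 := if_pos (kS b).2
        omega
      · rw [kS.injective (Subtype.ext h1)]
    · rintro ⟨k, i⟩
      by_cases hk : k ∈ S ∧ i.val = l k - 1
      · refine ⟨Sum.inr (kS.symm ⟨k, hk.1⟩), ?_⟩
        have hb : ((kS (kS.symm ⟨k, hk.1⟩) : S) : Fin K) = k := by simp
        simp only [cs, Sum.elim_inr]
        refine Sigma.ext hb ((Fin.heq_ext_iff (congrArg l hb)).2 ?_)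
        show l _ - 1 = i.val
        rw [hb, hk.2]
      · have hi : i.val < l' k := by
          have := i.isLt
          simp only [hl']
          split_ifs with hkS
          · have : i.val ≠ l k - 1 := fun e => hk ⟨hkS, e⟩
            omega
          · omega
        exact ⟨Sum.inl ⟨k, ⟨i.val, hi⟩⟩, rfl⟩
  let ce := Equiv.ofBijective cs hcs
  have hl'sum : ∑ k, l' k = N m := by
    have h := Fintype.card_congr ce
    simp only [Fintype.card_sum, Fintype.card_sigma, Fintype.card_fin] at h
    rw [hsum, N_succ] at h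
    omega
  let T' : Cells l' ≃ Fin (N m) := Fintype.equivFinOfCardEq (by
    rw [Fintype.card_sigma]; simpa using hl'sum)
  have hX' : Fintype.card X = N m + (m + 1) := by rw [hX, N_succ]
  let e₀ : Fin (N m) ⊕ Fin (m + 1) ≃ X := Fintype.equivOfCardEq (by simp [hX'])
  let T₀ : Cells l ≃ X := ce.symm.trans ((T'.sumCongr (Equiv.refl _)).trans e₀)
  choose eo heo using fun Y : {Y : Finset X // Y.card = m + 1} => exists_block hX' Y.1 Y.2
  let eY : Finset X → (Fin (N m) ⊕ Fin (m + 1) ≃ X) := fun Y =>
    if h : Y.card = m + 1 then eo ⟨Y, h⟩ else e₀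
  have heY : ∀ Y, Y.card = m + 1 → block (eY Y) = Y := fun Y h => by
    simp only [eY, dif_pos h]; exact heo ⟨Y, h⟩
  let φ : Fn X →ₗ[ℂ] Fn2 X :=
    ∑ Y ∈ powersetCard (m + 1) (univ : Finset X), term B target φ' (eY Y)
  have hequiv : ∀ σ f, φ (permL σ f) = perm2 σ (φ f) := by
    intro σ f
    funext s t
    simp only [φ, LinearMap.sum_apply, perm2_apply, Finset.sum_apply]
    have step : ∀ e : Fin (N m) ⊕ Fin (m + 1) ≃ X, term B target φ' e (permL σ f) s t
        = term B target φ' (e.trans σ.symm) f (s ∘ σ) (t ∘ σ) := by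
      intro e
      have h1 : restr B target e (permL σ f) = restr B target (e.trans σ.symm) f := rfl
      rw [term_apply, term_apply, h1]
      simp [Function.comp_def]
    refine sum_bij' (fun Y _ => Y.image σ.symm) (fun Y _ => Y.image σ) ?_ ?_ ?_ ?_ ?_
    · intro Y hY
      simpa [mem_powersetCard, card_image_of_injective _ σ.symm.injective] using hY
    · intro Y hY
      simpa [mem_powersetCard, card_image_of_injective _ σ.injective] using hY
    · intro Y _; simp [image_image]
    · intro Y _; simp [image_image]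
    · intro Y hY
      have hc : Y.card = m + 1 := (mem_powersetCard.1 hY).2
      rw [step, term_eq he' (e₁ := eY (Y.image σ.symm))]
      rw [heY _ (by rw [card_image_of_injective _ σ.symm.injective, hc]), block]
      conv_lhs => rw [← heY Y hc, block, image_image]
      rfl
  refine ⟨φ, hequiv, fun f => ?_, fun T => good_of_exists φ hequiv T₀ ?_ T⟩
  · simp only [φ, LinearMap.sum_apply]
    exact Submodule.sum_mem _ fun Y _ => extd2_mem _ (hmem' _)
  intro h0
  have hkey : restr B target e₀ (poly cCol cRow T₀) = poly cCol cRow T' := by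
    funext u
    let w₀ : Fin (m + 1) → Fin B := fun b => ⟨l (kS b) - 1, by
      have := single_le_sum (f := l) (fun _ _ => Nat.zero_le _) (mem_univ ((kS b : S) : Fin K))
      omega⟩
    show ∑ w ∈ _, poly cCol cRow T₀ _ = _
    have hdet : ∀ w : Fin (m + 1) → Fin B,
        poly cCol cRow T₀ (Sum.elim u (fun b => (w b : ℕ)) ∘ e₀.symm)
          = det (of fun p q : Cells l' ⊕ Fin (m + 1) =>
            if cCol (cs p) = cCol (cs q) ∧
              Sum.elim (u ∘ T') (fun b => (w b : ℕ)) p = cRow (cs q) then (1 : ℂ) else 0) := by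
      intro w
      rw [poly, ← det_submatrix_equiv_self ce]
      congr 1
      ext p q
      have hT : e₀.symm (T₀ (ce p)) = (T'.sumCongr (Equiv.refl _)) p := by simp [T₀]
      simp only [submatrix_apply, of_apply, Function.comp_apply, hT]
      rcases p with x | b <;> rfl
    rw [sum_eq_single w₀]
    · rw [hdet, poly]
      refine Eq.trans ?_ ((det_fromBlocks_zero₂₁ (of fun x y : Cells l' =>
          if cCol x = cCol y ∧ u (T' x) = cRow y then (1 : ℂ) else 0)
        (of fun (x : Cells l') (b : Fin (m + 1)) =>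
          if cCol x = ((kS b : S) : Fin K).val ∧ u (T' x) = l (kS b) - 1 then (1 : ℂ) else 0)
        (1 : Matrix (Fin (m + 1)) (Fin (m + 1)) ℂ)).trans (by rw [det_one, mul_one]))
      congr 1
      ext (x | b) (y | b')
      · simp [cs, cCol, cRow] <;> congr
      · simp [cs, cCol, cRow] <;> congr
      · simp only [of_apply, fromBlocks_apply₂₁, Matrix.zero_apply, cs, cCol, cRow, Sum.elim_inl,
          Sum.elim_inr, Fin.val_castLE]
        refine if_neg ?_
        rintro ⟨h1, h2⟩
        have hy := y.2.isLt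
        have hk : y.1 = ((kS b : S) : Fin K) := Fin.ext h1.symm
        have hlk : l' y.1 = l (kS b) - 1 := by rw [hk]; exact if_pos (kS b).2
        simp only [w₀] at h2
        omega
      · simp only [of_apply, fromBlocks_apply₂₂, cs, cCol, cRow, Sum.elim_inr, w₀,
          Matrix.one_apply, Fin.val_inj, Subtype.val_inj, kS.apply_eq_iff_eq]
        refine if_congr ⟨fun h => h.1, fun h => ⟨h, by rw [h]⟩⟩ rfl rfl
    · intro w hw hne
      simp only [mem_filter, mem_univ, true_and, htarget] at hw
      have hs : ∑ b, (w b : ℕ) = ∑ b, (l (kS b) - 1) := congrArg Multiset.sum hw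
      obtain ⟨b, hb⟩ : ∃ b, l (kS b) - 1 < (w b : ℕ) := by
        by_contra hc
        simp only [not_exists, not_lt] at hc
        apply hne
        funext b
        exact Fin.ext ((sum_eq_sum_iff_of_le fun b _ => hc b).1 hs b (mem_univ b))
      rw [hdet]
      refine det_eq_zero_of_row_eq_zero (Sum.inr b) fun q => ?_
      simp only [of_apply]
      refine if_neg ?_
      simp only [Sum.elim_inr]
      rintro ⟨h1, h2⟩
      rcases q with y | b'
      · simp only [cs, cCol, cRow, Sum.elim_inl, Sum.elim_inr, Fin.val_castLE] at h1 h2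
        have hy := y.2.isLt
        have hk : y.1 = ((kS b : S) : Fin K) := Fin.ext h1.symm
        have hlk : l' y.1 = l (kS b) - 1 := by rw [hk]; exact if_pos (kS b).2
        omega
      · simp only [cs, cCol, cRow, Sum.elim_inr, Fin.val_inj, Subtype.val_inj,
          kS.apply_eq_iff_eq] at h1 h2
        subst h1
        omega
    · intro hw
      exact absurd (by simp [htarget, w₀]) hw
  set f := poly cCol cRow T₀ with hf
  have hc0 : dm (m + 1) (fun i => (Fin.rev i).val) ≠ 0 := by
    rw [show (fun i : Fin (m + 1) => (Fin.rev i).val) = (fun i => i.val) ∘ Fin.revPerm from rfl,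
      dm_comp, dm_val, mul_one]
    simp
  have hz := inj (m + 1) (fun Y s t => φ' (restr B target (eY Y) f)
      (s ∘ eY Y ∘ Sum.inl) (t ∘ eY Y ∘ Sum.inl))
    (fun Y s t => dm (m + 1) (s ∘ eY Y ∘ Sum.inr) * dm (m + 1) (t ∘ eY Y ∘ Sum.inr))
    (dm (m + 1) (fun i => (Fin.rev i).val)) hc0 ?_ ?_ ?_ ?_ ?_
  · apply hne' T'
    rw [← hkey]
    funext s t
    set Y₀ := block e₀
    have hY₀ : Y₀.card = m + 1 := card_block e₀
    have hall : φ' (restr B target (eY Y₀) f) = 0 := by
      funext u v
      have := hz Y₀ hY₀ (Sum.elim u (fun _ => 0) ∘ (eY Y₀).symm)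
        (Sum.elim v (fun _ => 0) ∘ (eY Y₀).symm)
      simpa [Function.comp_def] using this
    have e1 : ∀ a b, term B target φ' e₀ f a b = 0 := fun a b => by
      rw [term_eq he' (e₁ := eY Y₀) (heY _ hY₀)]
      simp [term_apply, hall]
    have := e1 (Sum.elim s (fun i => i.val) ∘ e₀.symm) (Sum.elim t (fun i => i.val) ∘ e₀.symm)
    simpa [term_apply, Function.comp_def, dm_val] using this
  · intro Y s t hY hne
    obtain ⟨h1, h2⟩ := mul_ne_zero_iff.1 hne
    constructor
    · rw [← dm_support h1]
      conv_lhs => rw [← heY Y hY, block, image_image]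
      rfl
    · rw [← dm_support h2]
      conv_lhs => rw [← heY Y hY, block, image_image]
      rfl
  · intro Y s t hY himg ht
    have hmemY : ∀ b, eY Y (Sum.inr b) ∈ Y := fun b => by
      have h : eY Y (Sum.inr b) ∈ block (eY Y) := mem_image.2 ⟨b, mem_univ _, rfl⟩
      rwa [heY Y hY] at h
    let π : Fin (m + 1) → Fin (m + 1) := fun b => ⟨s (eY Y (Sum.inr b)), by
      rw [← mem_range, ← himg]; exact mem_image_of_mem _ (hmemY b)⟩
    have hπ : Function.Bijective π := Finite.surjective_iff_bijective.1 fun i => by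
      have : i.val ∈ Y.image s := by rw [himg, mem_range]; exact i.isLt
      obtain ⟨x, hx, hxi⟩ := mem_image.1 this
      rw [← heY Y hY] at hx
      obtain ⟨b, -, rfl⟩ := mem_image.1 hx
      exact ⟨b, Fin.ext hxi⟩
    have e1 : s ∘ eY Y ∘ Sum.inr = (fun i : Fin (m + 1) => i.val) ∘ Equiv.ofBijective π hπ := rfl
    have e2 : t ∘ eY Y ∘ Sum.inr
        = (fun i : Fin (m + 1) => (Fin.rev i).val) ∘ Equiv.ofBijective π hπ := by
      funext b
      simp only [Function.comp_apply, Equiv.ofBijective_apply, Fin.val_rev, π, ht _ (hmemY b)]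
      omega
    rw [e1, e2, dm_comp, dm_comp, dm_val]
    linear_combination (dm (m + 1) (fun i => (Fin.rev i).val)) * sign_sq (Equiv.ofBijective π hπ)
  · intro Y s t s' t' hY hs ht
    have hout : ∀ a, eY Y (Sum.inl a) ∉ Y := fun a ha => by
      have ha' : eY Y (Sum.inl a) ∈ block (eY Y) := by rwa [heY Y hY]
      obtain ⟨b, -, hb⟩ := mem_image.1 ha'
      simp at hb
    have e1 : s ∘ eY Y ∘ Sum.inl = s' ∘ eY Y ∘ Sum.inl := funext fun a => hs _ (hout a)
    have e2 : t ∘ eY Y ∘ Sum.inl = t' ∘ eY Y ∘ Sum.inl := funext fun a => ht _ (hout a)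
    simp only [e1, e2]
  · intro Y s t hY hne a _
    have h1 := fibre_le (hmem' _) hne a
    refine le_trans (le_trans ?_ h1) (by omega)
    refine (card_le_card ?_).trans
      (card_image_le (f := fun i : Fin (N m) => eY Y (Sum.inl i)))
    intro x hx
    simp only [mem_filter, mem_univ, true_and] at hx
    obtain ⟨p, rfl⟩ := (eY Y).surjective x
    rcases p with i | b
    · exact mem_image.2 ⟨i, by simpa using hx.2, rfl⟩
    · refine absurd ?_ hx.1
      have h : eY Y (Sum.inr b) ∈ block (eY Y) := mem_image.2 ⟨b, mem_univ _, rfl⟩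
      rwa [heY Y hY] at h
  · intro s t
    have := congrFun (congrFun h0 s) t
    simpa [φ, LinearMap.sum_apply, Finset.sum_apply, term_apply] using this

end Vale.Agent.P197
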