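import Vale.Agent.P197.Induct
import Vale.Agent.P197.Remove

/-!
# P197: the main induction
-/

namespace Vale.Agent.P197

open Finset

/-- For every shape `l` of size `N m` some equivariant map into `Prod2 m` is nonzero on its
polytabloids. -/
theorem good_all : ∀ (m K : ℕ) (l : Fin K → ℕ), ∑ k, l k = N m → Good m l := by
  intro m
  induction m with
  | zero => exact fun K l h => good_of_key (keyOK_zero h)
  | succ m ih =>
    intro K l hsum
    by_cases hcnt : m + 1 ≤ (Finset.univ.filter fun k => 0 < l k).card
    · obtain ⟨S, hSsub, hS⟩ := Finset.exists_subset_card_eq hcnt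
      have hpos : ∀ k ∈ S, 0 < l k := fun k hk => (Finset.mem_filter.1 (hSsub hk)).2
      refine good_remove l S hS hpos hsum (ih K _ ?_)
      have h1 : ∑ k, l k = ∑ k, (if k ∈ S then l k - 1 else l k) + ∑ k, (if k ∈ S then 1 else 0) := by
        rw [← Finset.sum_add_distrib]
        refine Finset.sum_congr rfl fun k _ => ?_
        by_cases hk : k ∈ S
        · have := hpos k hk
          simp only [hk, if_true]
          omega
        · simp [hk]
      rw [hsum, N_succ] at h1
      simp [hS] at h1
      omega
    · exact good_few l hsum (by omega)

end Vale.Agent.P197
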