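import Vale.Agent.P197.Specht.Fixed

/-!
# P197: named predicates for the statement of Saxl's conjecture
-/

namespace Vale.Agent.P197

open Equiv

/-- The tensor square of `ρ` contains `σ`: some intertwining map into it is nonzero. -/
def SquareContains {G V W : Type} [Group G] [AddCommMonoid V] [Module ℂ V] [AddCommMonoid W]
    [Module ℂ W] (ρ : Representation ℂ G W) (σ : Representation ℂ G V) : Prop :=
  ∃ f : σ.IntertwiningMap (ρ.tprod ρ), f ≠ 0

/-- The tensor square of `ρ` contains every irreducible finite-dimensional representation. -/
def SquareUniversal {G W : Type} [Group G] [AddCommMonoid W] [Module ℂ W]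
    (ρ : Representation ℂ G W) : Prop :=
  ∀ (V : Type) [AddCommGroup V] [Module ℂ V] [FiniteDimensional ℂ V]
    (σ : Representation ℂ G V), σ.IsIrreducible → SquareContains ρ σ

/-- The Specht module of `T` is an irreducible representation. -/
def SpechtIrreducible {α : Type} [Fintype α] [DecidableEq α] {lam : YoungDiagram}
    (T : α ≃ lam.cells) : Prop :=
  Representation.IsIrreducible (k := ℂ) (G := Perm α) (V := (Specht.specht T).toSubmodule)
    (Specht.spechtRep T)

/-- The Kronecker coefficient of the shapes of `T`, `T`, `U` is positive. -/
def KroneckerPos {α : Type} [Fintype α] [DecidableEq α] {lam mu : YoungDiagram}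
    (T : α ≃ lam.cells) (U : α ≃ mu.cells) : Prop :=
  SquareContains (Specht.spechtRep T) (Specht.spechtRep U)

/-- The tensor square of the Specht module of `T` contains every irreducible. -/
def SpechtSquareUniversal {α : Type} [Fintype α] [DecidableEq α] {lam : YoungDiagram}
    (T : α ≃ lam.cells) : Prop :=
  SquareUniversal (Specht.spechtRep T)

end Vale.Agent.P197
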