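import Vale.Agent.P197.Band

/-!
# P197: the top coefficient of the key sum factors through the band
-/

namespace Vale.Agent.P197

open Matrix Finset Polynomial

variable {m b K : ℕ} {S : Type} [CommRing S] [CharP S 2]

/-- The weight used for the larger staircase: band cells carry a power of the variable. -/
noncomputable def znew (b : ℕ) (ζ z : ℕ → ℕ → ℕ → S) (r α β : ℕ) : S[X] :=
  if α < b ∧ β < b then C (ζ r α β) * X ^ r
  else if b ≤ α ∧ b ≤ β then C (z r (α - b) (β - b)) else 0

section Coeff

variable {A B : Type} [Fintype A] [Fintype B] [DecidableEq A] [DecidableEq B]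

omit [CharP S 2] in
/-- If off-diagonal block permutations have the wrong degree, the coefficient is block diagonal. -/
theorem coeff_det_blocks (r : A ⊕ B → ℕ) (D : ℕ) (c : A ⊕ B → A ⊕ B → S)
    (hD : D = ∑ y : B, r (Sum.inr y))
    (hdeg : ∀ π : Equiv.Perm (A ⊕ B), (∀ y, c (π y) y ≠ 0) →
      (∑ y, (if (π y).isRight then r y else 0)) = D → ∀ y, (π y).isRight = y.isRight) :
    (det (of fun x y : A ⊕ B => C (c x y) * X ^ (if x.isRight then r y else 0))).coeff D
      = (det (of fun x y : A => c (Sum.inl x) (Sum.inl y))) *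
        det (of fun x y : B => c (Sum.inr x) (Sum.inr y)) := by
  rw [← det_fromBlocks_zero₂₁ _ 0, det_apply', det_apply', finsetSum_coeff]
  refine Finset.sum_congr rfl fun π _ => ?_
  simp only [of_apply, Finset.prod_mul_distrib, ← map_prod, Finset.prod_pow_eq_pow_sum]
  rw [← mul_assoc, ← Polynomial.C_eq_intCast, ← map_mul, coeff_C_mul_X_pow]
  by_cases hc : ∀ y, c (π y) y ≠ 0
  · by_cases he : D = ∑ y, (if (π y).isRight then r y else 0)
    · rw [if_pos he]
      congr 1
      refine Finset.prod_congr rfl fun y _ => ?_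
      have := hdeg π hc he.symm y
      rcases y with y | y <;> rcases hy : π _ with x | x <;> simp [hy] at this ⊢
    · rw [if_neg he, eq_comm]
      obtain ⟨y, hy⟩ : ∃ y, (π y).isRight ≠ y.isRight := by
        by_contra hcon
        push Not at hcon
        apply he
        rw [hD, Fintype.sum_sum_type]
        simp [hcon]
      rw [Finset.prod_eq_zero (Finset.mem_univ y), mul_zero]
      rcases y with y | y <;> rcases hy' : π _ with x | x <;> simp [hy'] at hy ⊢
  · push Not at hc
    obtain ⟨y, hy⟩ := hc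
    rw [show ∏ x, c (π x) x = 0 from Finset.prod_eq_zero (Finset.mem_univ y) hy, mul_zero,
      ite_self]
    symm
    refine mul_eq_zero_of_right _ (Finset.prod_eq_zero (Finset.mem_univ y) ?_)
    rcases y with y | y <;> rcases hy' : π _ with x | x <;> simp [hy'] at hy ⊢ <;> exact hy

end Coeff

variable {Cl : Type} [Fintype Cl] [DecidableEq Cl]

/-- The cells of the new band classes. -/
abbrev BC (sz : Cl → ℕ) := Σ c : Cl, Fin (sz c)

/-- How the classes of the band extend the columns `l'` to `l`. -/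
structure Ext (l l' : Fin K → ℕ) (sz : Cl → ℕ) where
  ι : Cl → Fin K
  inj : Function.Injective ι
  at_ι : ∀ c, l (ι c) = l' (ι c) + sz c
  off : ∀ k, (∀ c, ι c ≠ k) → l k = l' k

variable {l l' : Fin K → ℕ} {sz : Cl → ℕ}

omit [Fintype Cl] [DecidableEq Cl] in
theorem Ext.le (e : Ext l l' sz) (k : Fin K) : l' k ≤ l k := by
  by_cases h : ∃ c, e.ι c = k
  · obtain ⟨c, rfl⟩ := h
    rw [e.at_ι]; omega
  · push Not at h
    rw [e.off k h]

/-- The splitting of the cells. -/
def Ext.split (e : Ext l l' sz) : Cells l' ⊕ BC sz → Cells l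
  | Sum.inl x => ⟨x.1, ⟨x.2.val, lt_of_lt_of_le x.2.isLt (e.le x.1)⟩⟩
  | Sum.inr y => ⟨e.ι y.1, ⟨l' (e.ι y.1) + y.2.val, by rw [e.at_ι]; omega⟩⟩

omit [Fintype Cl] [DecidableEq Cl] in
theorem Ext.split_bijective (e : Ext l l' sz) : Function.Bijective e.split := by
  constructor
  · rintro (⟨k, i⟩ | ⟨c, i⟩) (⟨k', i'⟩ | ⟨c', i'⟩) h <;>
      simp only [Ext.split, Sigma.mk.injEq] at h
    · obtain ⟨rfl, h⟩ := h
      simp [Fin.ext_iff] at h
      simp [Fin.ext h]
    · obtain ⟨rfl, h⟩ := h
      simp [Fin.ext_iff] at h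
      omega
    · obtain ⟨rfl, h⟩ := h
      simp [Fin.ext_iff] at h
      omega
    · obtain ⟨h1, h⟩ := h
      obtain rfl := e.inj h1
      simp [Fin.ext_iff] at h
      simp [Fin.ext h]
  · rintro ⟨k, i⟩
    by_cases h : i.val < l' k
    · exact ⟨Sum.inl ⟨k, ⟨i.val, h⟩⟩, rfl⟩
    · obtain ⟨c, rfl⟩ : ∃ c, e.ι c = k := by
        by_contra hc
        push Not at hc
        have := e.off k hc
        omega
      refine ⟨Sum.inr ⟨c, ⟨i.val - l' (e.ι c), ?_⟩⟩, ?_⟩
      · have := e.at_ι c; omega
      · simp only [Ext.split, Sigma.mk.injEq, heq_eq_eq, true_and, Fin.ext_iff]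
        omega

/-- The bijection from the cells of `l` onto the bigger staircase. -/
noncomputable def Ext.tab (e : Ext l l' sz) (T' : Cells l' ≃ Stair m) (E : BC sz ≃ Band m b) :
    Cells l ≃ Stair (m + b) :=
  (Equiv.ofBijective _ e.split_bijective).symm.trans
    ((Equiv.sumCongr T' E).trans ((Equiv.sumComm _ _).trans glue))

omit [Fintype Cl] [DecidableEq Cl] in
theorem Ext.tab_split (e : Ext l l' sz) (T' : Cells l' ≃ Stair m) (E : BC sz ≃ Band m b)
    (x : Cells l' ⊕ BC sz) :
    e.tab T' E (e.split x) = glue ((Sum.map T' E x).swap) := by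
  simp only [Ext.tab, Equiv.trans_apply, Equiv.ofBijective_symm_apply_apply]
  rcases x with x | x <;> rfl

/-- The determinant of the band classes. -/
def bDet (l' : Fin K → ℕ) (ι : Cl → Fin K) (E : BC sz ≃ Band m b) (ζ : ℕ → ℕ → ℕ → S)
    (α β : Band m b → ℕ) : S :=
  det (of fun x y : BC sz =>
    if x.1 = y.1 then ζ (l' (ι y.1) + y.2.val) (α (E x)) (β (E x)) else 0)

/-- The band factor. -/
def bandG (l' : Fin K → ℕ) (ι : Cl → Fin K) (E : BC sz ≃ Band m b) (ζ : ℕ → ℕ → ℕ → S) : S :=
  ∑ α : Band m b → Fin b, ∑ β : Band m b → Fin b,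
    bR (fun x => (α x : ℕ)) * bC (fun x => (β x : ℕ))
      * bDet l' ι E ζ (fun x => (α x : ℕ)) (fun x => (β x : ℕ))

/-- The top degree. -/
def bandDeg (l' : Fin K → ℕ) (ι : Cl → Fin K) (sz : Cl → ℕ) : ℕ :=
  ∑ y : BC sz, (l' (ι y.1) + y.2.val)

omit [CharP S 2] in
theorem coeff_det_comb (e : Ext l l' sz) (T' : Cells l' ≃ Stair m) (E : BC sz ≃ Band m b)
    (ζ z : ℕ → ℕ → ℕ → S) (a c : Band m b → ℕ) (a' c' : Stair m → ℕ) (ha : ∀ x, a x < b)
    (hc : ∀ x, c x < b) :
    (kMat (e.tab T' E) (znew b ζ z) (comb a a') (comb c c')).det.coeff (bandDeg l' e.ι sz)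
      = (kMat T' z a' c').det * bDet l' e.ι E ζ a c := by
  let sp : Cells l' ⊕ BC sz ≃ Cells l := Equiv.ofBijective _ e.split_bijective
  rw [← det_submatrix_equiv_self sp]
  let r : Cells l' ⊕ BC sz → ℕ := fun y => cRow (e.split y)
  let κ : Cells l' ⊕ BC sz → Fin K := fun y => (e.split y).1
  let cf : Cells l' ⊕ BC sz → Cells l' ⊕ BC sz → S := fun x y =>
    if κ x = κ y then
      Sum.elim (fun u => z (r y) (a' (T' u)) (c' (T' u))) (fun u => ζ (r y) (a (E u)) (c (E u))) x
    else 0
  have hM : (kMat (e.tab T' E) (znew b ζ z) (comb a a') (comb c c')).submatrix sp sp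
      = of fun x y => C (cf x y) * X ^ (if x.isRight then r y else 0) := by
    ext1 x y
    simp only [submatrix_apply, kMat, of_apply, sp, Equiv.ofBijective_apply, e.tab_split]
    by_cases h : κ x = κ y
    · rw [if_pos h]
      rcases x with u | u
      · simp only [cf, h, if_true, Sum.map_inl, Sum.swap_inl, comb_inr, znew, r]
        rw [if_neg (by omega), if_pos (by omega)]
        simp
      · have h1 := ha (E u)
        have h2 := hc (E u)
        simp only [cf, h, if_true, Sum.map_inr, Sum.swap_inr, glue_inl, comb_inl, znew, r]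
        rw [if_pos ⟨h1, h2⟩]
        simp
    · rw [if_neg h]
      simp [cf, h]
  rw [hM, coeff_det_blocks r _ cf (by rfl) ?_]
  · congr 1
    rw [bDet]
    congr 1
    ext x y
    simp only [cf, κ, r, Ext.split, cRow, of_apply, Sum.elim_inr]
    exact if_congr e.inj.eq_iff rfl rfl
  intro π hπ heq
  have hκ : ∀ y, κ (π y) = κ y := fun y => by
    by_contra h
    exact hπ y (by simp [cf, h])
  have hB : ∀ y : Cells l' ⊕ BC sz, y.isRight = true ↔ l' (κ y) ≤ r y := by
    rintro (x | x)
    · have := x.2.isLt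
      simp [κ, r, Ext.split, cRow]
    · simp [κ, r, Ext.split, cRow]
  -- weights `r y - l' (κ y)` are nonnegative exactly on the band
  let w : Cells l' ⊕ BC sz → ℤ := fun y => (r y : ℤ) - l' (κ y)
  let q : Cells l' ⊕ BC sz → ℤ := fun y => if y.isRight then 1 else 0
  have hsum : ∑ y, q (π y) * w y = ∑ y, q y * w y := by
    have h1 : ∑ y, q (π y) * (r y : ℤ) = ∑ y, q y * (r y : ℤ) := by
      have hh : ∑ y, (if (π y).isRight then r y else 0) = ∑ y, (if y.isRight then r y else 0) := by
        rw [heq, Fintype.sum_sum_type]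
        simp [bandDeg, r, Ext.split, cRow]
      have := congrArg (fun n : ℕ => (n : ℤ)) hh
      simp only [Nat.cast_sum, apply_ite (fun n : ℕ => (n : ℤ)), Nat.cast_zero] at this
      simpa [q, ite_mul] using this
    have h2 : ∑ y, q (π y) * (l' (κ y) : ℤ) = ∑ y, q y * (l' (κ y) : ℤ) := by
      rw [← Equiv.sum_comp π (fun y => q y * (l' (κ y) : ℤ))]
      simp [hκ]
    simp only [w, mul_sub, Finset.sum_sub_distrib, h1, h2]
  have hterm : ∀ y, q (π y) * w y ≤ q y * w y := by
    intro y
    have := hB y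
    by_cases hy : y.isRight = true <;> by_cases hy' : (π y).isRight = true <;>
      simp [q, w, hy, hy'] at this ⊢ <;> omega
  intro y
  have hy := (Finset.sum_eq_sum_iff_of_le (fun y _ => hterm y)).1 hsum y (Finset.mem_univ y)
  by_cases hy1 : y.isRight = true
  · -- a band cell: use that the band is finite
    have himp : ∀ y, (π y).isRight = true → y.isRight = true := by
      intro y hy'
      by_contra hn
      have h0 := (Finset.sum_eq_sum_iff_of_le (fun y _ => hterm y)).1 hsum y (Finset.mem_univ y)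
      have := hB y
      simp [q, w, hy', hn] at h0 this
      omega
    rw [hy1]
    let Bs := Finset.univ.filter fun y : Cells l' ⊕ BC sz => y.isRight = true
    have hsub : Bs.image π.symm ⊆ Bs := by
      intro u hu
      simp only [Bs, Finset.mem_image, Finset.mem_filter, Finset.mem_univ, true_and] at hu ⊢
      obtain ⟨v, hv, rfl⟩ := hu
      exact himp _ (by simpa using hv)
    have heqs := Finset.eq_of_subset_of_card_le hsub
      (by rw [Finset.card_image_of_injective _ π.symm.injective])
    have : y ∈ Bs.image π.symm := by rw [heqs]; simp [Bs, hy1]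
    simp only [Bs, Finset.mem_image, Finset.mem_filter, Finset.mem_univ, true_and] at this
    obtain ⟨v, hv, rfl⟩ := this
    simpa using hv
  · by_cases hy2 : (π y).isRight = true
    · have := hB y
      simp [q, w, hy1, hy2] at hy this
      omega
    · simp [hy1, hy2]

/-- The factorisation. -/
theorem coeff_Fsum (e : Ext l l' sz) (T' : Cells l' ≃ Stair m) (E : BC sz ≃ Band m b)
    (ζ z : ℕ → ℕ → ℕ → S) :
    (Fsum (e.tab T' E) (znew b ζ z)).coeff (bandDeg l' e.ι sz)
      = bandG l' e.ι E ζ * Fsum T' z := by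
  let f : (Stair (m + b) → Fin (m + b)) × (Stair (m + b) → Fin (m + b)) → S := fun p =>
    ((wR (fun x => (p.1 x : ℕ)) * wC (fun x => (p.2 x : ℕ))
      * (kMat (e.tab T' E) (znew b ζ z) (fun x => (p.1 x : ℕ)) (fun x => (p.2 x : ℕ))).det :
      S[X])).coeff (bandDeg l' e.ι sz)
  let cmb : (Band m b → Fin b) → (Stair m → Fin m) → (Stair (m + b) → Fin (m + b)) :=
    fun a a' x => Sum.elim (fun y => ⟨(a y : ℕ), by have := (a y).isLt; omega⟩)
      (fun y => ⟨(a' y : ℕ) + b, by have := (a' y).isLt; omega⟩) (glue.symm x)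
  have hcmb : ∀ a a', (fun x => (cmb a a' x : ℕ))
      = comb (fun y => (a y : ℕ)) (fun y => (a' y : ℕ)) := by
    intro a a'; funext x
    simp only [cmb, comb]
    rcases glue.symm x with y | y <;> rfl
  let Q := ((Band m b → Fin b) × (Band m b → Fin b)) × ((Stair m → Fin m) × (Stair m → Fin m))
  let j : Q → (Stair (m + b) → Fin (m + b)) × (Stair (m + b) → Fin (m + b)) := fun q =>
    (cmb q.1.1 q.2.1, cmb q.1.2 q.2.2)
  have cmb_inj : ∀ a a' a2 a2', cmb a a' = cmb a2 a2' → a = a2 ∧ a' = a2' := by
    intro a a' a2 a2' h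
    refine ⟨funext fun y => Fin.ext ?_, funext fun y => Fin.ext ?_⟩
    · have := congrArg Fin.val (congrFun h (glue (Sum.inl y)))
      simpa [cmb] using this
    · have := congrArg Fin.val (congrFun h (glue (Sum.inr y)))
      simpa [cmb] using this
  have j_inj : Function.Injective j := by
    rintro ⟨⟨a, c⟩, a', c'⟩ ⟨⟨a2, c2⟩, a2', c2'⟩ h
    obtain ⟨rfl, rfl⟩ := cmb_inj _ _ _ _ (congrArg Prod.fst h)
    obtain ⟨rfl, rfl⟩ := cmb_inj _ _ _ _ (congrArg Prod.snd h)
    rfl
  have houtside : ∀ p, p ∉ Set.range j → f p = 0 := by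
    intro p hp
    simp only [f]
    set α : Stair (m + b) → ℕ := fun x => (p.1 x : ℕ) with hα
    set β : Stair (m + b) → ℕ := fun x => (p.2 x : ℕ) with hβ
    by_cases hiff : ∀ x, α x < b ↔ β x < b
    · by_cases hw : (wR α : S[X]) = 0 ∨ (wC β : S[X]) = 0
      · rcases hw with hw | hw <;> simp [hw]
      · exfalso
        push Not at hw
        obtain ⟨π, hπ⟩ := exists_perm_of_wR hw.1
        obtain ⟨ρ, hρ⟩ := exists_perm_of_wC hw.2
        have hband := low_iff_band hπ hρ hiff
        apply hp
        have hlo : ∀ y : Band m b, α y.1 < b := fun y => (hband _).2 y.2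
        have hhi : ∀ y : Stair m, b ≤ α (glue (Sum.inr y)) ∧ b ≤ β (glue (Sum.inr y)) := by
          intro y
          have := stair_lt y
          have h1 := hband (glue (Sum.inr y))
          have h2 := hiff (glue (Sum.inr y))
          simp only [sRow_glue_inr, sCol_glue_inr] at h1
          omega
        refine ⟨((fun y => ⟨α y.1, hlo y⟩, fun y => ⟨β y.1, (hiff _).1 (hlo y)⟩),
          (fun y => ⟨α (glue (Sum.inr y)) - b, by
              have := (hhi y).1; have := (p.1 (glue (Sum.inr y))).isLt
              simp only [hα] at *; omega⟩,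
           fun y => ⟨β (glue (Sum.inr y)) - b, by
              have := (hhi y).2; have := (p.2 (glue (Sum.inr y))).isLt
              simp only [hβ] at *; omega⟩)), ?_⟩
        refine Prod.ext (funext fun x => ?_) (funext fun x => ?_)
        · obtain ⟨u, rfl⟩ := glue.surjective x
          rcases u with y | y <;> apply Fin.ext
          · simp only [j, cmb, α, Equiv.symm_apply_apply, Sum.elim_inl]
            rfl
          · have := (hhi y).1
            simp [j, cmb, α] at this ⊢
            omega
        · obtain ⟨u, rfl⟩ := glue.surjective x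
          rcases u with y | y <;> apply Fin.ext
          · simp only [j, cmb, β, Equiv.symm_apply_apply, Sum.elim_inl]
            rfl
          · have := (hhi y).2
            simp [j, cmb, β] at this ⊢
            omega
    · push Not at hiff
      obtain ⟨x, hx⟩ := hiff
      have hrow : (kMat (e.tab T' E) (znew b ζ z) α β).det = 0 := by
        refine det_eq_zero_of_row_eq_zero ((e.tab T' E).symm x) fun y => ?_
        simp only [kMat, of_apply, Equiv.apply_symm_apply]
        split_ifs
        · rw [znew, if_neg, if_neg] <;> rcases hx with hx | hx <;> omega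
        · rfl
      simp [hrow]
  calc (Fsum (e.tab T' E) (znew b ζ z)).coeff (bandDeg l' e.ι sz)
      = ∑ p, f p := by
        rw [Fsum, finsetSum_coeff, Fintype.sum_prod_type]
        simp only [f, finsetSum_coeff]
    _ = ∑ q : Q, f (j q) := (Fintype.sum_of_injective j j_inj _ f houtside (fun _ => rfl)).symm
    _ = ∑ q : Q, (bR (fun x => (q.1.1 x : ℕ)) * bC (fun x => (q.1.2 x : ℕ))
          * bDet l' e.ι E ζ (fun x => (q.1.1 x : ℕ)) (fun x => (q.1.2 x : ℕ)))
          * (wR (fun x => (q.2.1 x : ℕ)) * wC (fun x => (q.2.2 x : ℕ))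
          * (kMat T' z (fun x => (q.2.1 x : ℕ)) (fun x => (q.2.2 x : ℕ))).det) := by
        refine Finset.sum_congr rfl fun q _ => ?_
        simp only [f, j, hcmb]
        rw [wR_comb _ _ (fun x => (q.1.1 x).isLt), wC_comb _ _ (fun x => (q.1.2 x).isLt),
          ← map_bR (C : S →+* S[X]), ← map_bC (C : S →+* S[X]), wR, wC, ← map_chi (C : S →+* S[X]),
          ← map_chi (C : S →+* S[X]), ← map_mul, ← map_mul, ← map_mul, coeff_C_mul,
          coeff_det_comb e T' E ζ z _ _ _ _ (fun x => (q.1.1 x).isLt) (fun x => (q.1.2 x).isLt)]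
        simp only [wR, wC]
        ring
    _ = _ := by
        simp only [bandG, Fsum, Fintype.sum_prod_type, Q, ← Finset.mul_sum, ← Finset.sum_mul]

end Vale.Agent.P197
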